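import Mathlib

/-!
Definitions for the forced Navier-Stokes halting-detection problem.

Fields on the flat torus `(ℝ/ℤ)³` are written as `ℤ³`-periodic functions on `ℝ³ = Fin 3 → ℝ`.
-/

namespace Vale.Agent.P113

open Set MeasureTheory

/-- `ℝ³`. -/
abbrev V3 := Fin 3 → ℝ

/-- The flat torus `(ℝ/ℤ)³`. -/
abbrev T3 := Fin 3 → UnitAddCircle

/-- The quotient map `ℝ³ → (ℝ/ℤ)³`. -/
def proj (x : V3) : T3 := fun i => (x i : UnitAddCircle)

/-- `g` is `ℤ³`-periodic, i.e. a function on the torus. -/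
def SpacePeriodic {α : Type} (g : V3 → α) : Prop :=
  ∀ (x : V3) (k : Fin 3 → ℤ), g (fun i => x i + (k i : ℝ)) = g x

/-- The partial derivative `∂g/∂x_j` at `x`. -/
noncomputable def pd (j : Fin 3) (g : V3 → ℝ) (x : V3) : ℝ := fderiv ℝ g x (Pi.single j 1)

/-- `(u, p)` is a classical solution on `[0,T]` of
`∂ₜu + (u·∇)u = -∇p + νΔu + f`, `div u = 0`, `u(0,·) = 0` on the torus. -/
structure IsClassicalSolution (ν : ℝ) (f : ℝ → V3 → V3) (T : ℝ)
    (u : ℝ → V3 → V3) (p : ℝ → V3 → ℝ) : Prop where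
  periodic_u : ∀ t ∈ Icc 0 T, SpacePeriodic (u t)
  periodic_p : ∀ t ∈ Icc 0 T, SpacePeriodic (p t)
  contDiff_u : ∀ t ∈ Icc 0 T, ContDiff ℝ 2 (u t)
  contDiff_p : ∀ t ∈ Icc 0 T, ContDiff ℝ 1 (p t)
  differentiable_time : ∀ x : V3, ∀ i : Fin 3, ∀ t ∈ Icc 0 T,
    DifferentiableWithinAt ℝ (fun s => u s x i) (Icc 0 T) t
  continuous_u : ContinuousOn (fun z : ℝ × V3 => u z.1 z.2) (Icc 0 T ×ˢ univ)
  continuous_ut : ∀ i : Fin 3, ContinuousOn
    (fun z : ℝ × V3 => derivWithin (fun s => u s z.2 i) (Icc 0 T) z.1) (Icc 0 T ×ˢ univ)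
  continuous_ux : ∀ i j : Fin 3, ContinuousOn
    (fun z : ℝ × V3 => pd j (fun y => u z.1 y i) z.2) (Icc 0 T ×ˢ univ)
  continuous_uxx : ∀ i j k : Fin 3, ContinuousOn
    (fun z : ℝ × V3 => pd k (pd j (fun y => u z.1 y i)) z.2) (Icc 0 T ×ˢ univ)
  continuous_p : ContinuousOn (fun z : ℝ × V3 => p z.1 z.2) (Icc 0 T ×ˢ univ)
  continuous_px : ∀ i : Fin 3, ContinuousOn
    (fun z : ℝ × V3 => pd i (p z.1) z.2) (Icc 0 T ×ˢ univ)
  momentum : ∀ t ∈ Icc 0 T, ∀ (x : V3) (i : Fin 3),
    derivWithin (fun s => u s x i) (Icc 0 T) t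
      + ∑ j, u t x j * pd j (fun y => u t y i) x
      = - pd i (p t) x + ν * ∑ j, pd j (pd j (fun y => u t y i)) x + f t x i
  incompressible : ∀ t ∈ Icc 0 T, ∀ x : V3, ∑ i, pd i (fun y => u t y i) x = 0
  initial : ∀ x : V3, u 0 x = 0
  mean_zero : ∀ t ∈ Icc 0 T, ∫ x in Icc (0 : V3) 1, p t x = 0

/-- A function of time and space is smooth on `[0,∞) × ℝ³`. -/
def SmoothForward {E : Type} [NormedAddCommGroup E] [NormedSpace ℝ E] (g : ℝ → V3 → E) : Prop :=
  ContDiffOn ℝ ((⊤ : ℕ∞) : WithTop ℕ∞) (fun z : ℝ × V3 => g z.1 z.2) (Ici 0 ×ˢ univ)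

/-- `X` is the trajectory of `a` under the velocity field `u`: `X' = u(t, X)`, `X(0) = a`. -/
def IsTrajectory (u : ℝ → V3 → V3) (a : V3) (X : ℝ → V3) : Prop :=
  X 0 = a ∧ ∀ t, 0 ≤ t → HasDerivWithinAt X (u t (X t)) (Ici 0) t

/-! ### Turing machines -/

/-- A deterministic one-tape Turing machine: `((start, halting states), table)`. States and
symbols are natural numbers and `0` is the blank. A table entry `((q, s), (q', s', d))` says: in
the non-halting state `q` reading `s`, write `s'`, go to state `q'` and move left if `d = 0`,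
right if `d = 1`, and stay otherwise. The first matching entry is used. -/
abbrev Machine := (ℕ × List ℕ) × List ((ℕ × ℕ) × (ℕ × ℕ × ℕ))

/-- A configuration `(q, L, s, R)`: the state, the cells to the left of the head (nearest first),
the scanned symbol, the cells to the right of the head (nearest first). All cells beyond the two
lists are blank. -/
abbrev Cfg := ℕ × List ℕ × ℕ × List ℕ

/-- The effect of writing `s'`, entering state `q'` and moving in direction `d`. -/
def moveHead (c : Cfg) (a : ℕ × ℕ × ℕ) : Cfg :=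
  if a.2.2 = 0 then (a.1, c.2.1.tail, c.2.1.headI, a.2.1 :: c.2.2.2)
  else if a.2.2 = 1 then (a.1, a.2.1 :: c.2.1, c.2.2.2.headI, c.2.2.2.tail)
  else (a.1, c.2.1, a.2.1, c.2.2.2)

/-- One step of the machine; nothing changes in a halting state or if no entry matches. -/
def stepCfg (M : Machine) (c : Cfg) : Cfg :=
  if c.1 ∈ M.1.2 then c
  else ((M.2.lookup (c.1, c.2.2.1)).map (moveHead c)).getD c

/-- The initial configuration on the input word `w`: head on the first cell of `w`. -/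
def initCfg (M : Machine) (w : List ℕ) : Cfg := (M.1.1, [], w.headI, w.tail)

/-- `M` halts on `w`: some halting state is reached after finitely many steps. -/
def Halts (M : Machine) (w : List ℕ) : Prop :=
  ∃ n : ℕ, ((stepCfg M)^[n] (initCfg M w)).1 ∈ M.1.2

/-! ### Effective forces -/

/-- A name of a rational number: `(a, b, c)` names `(a - b) / (c + 1)`. -/
abbrev QName := ℕ × ℕ × ℕ

/-- The rational number (as a real) with a given name. -/
noncomputable def qval (q : QName) : ℝ := ((q.1 : ℝ) - q.2.1) / ((q.2.2 : ℝ) + 1)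

/-- The mixed derivative `∂ₜ^a ∂₀^b₀ ∂₁^b₁ ∂₂^b₂ f_i` at `(t, x)`, one-sided in time at `t = 0`. -/
noncomputable def mixedDeriv (f : ℝ → V3 → V3) (i : Fin 3) (a : ℕ) (b : ℕ × ℕ × ℕ)
    (t : ℝ) (x : ℝ × ℝ × ℝ) : ℝ :=
  iteratedDerivWithin a (fun s : ℝ =>
    iteratedDeriv b.1 (fun y0 : ℝ =>
      iteratedDeriv b.2.1 (fun y1 : ℝ =>
        iteratedDeriv b.2.2 (fun y2 : ℝ => f s ![y0, y1, y2] i) x.2.2) x.2.1) x.1) (Ici 0) t

/-- The program `c` makes the force `f` effective: on (codes of) a component `i`, orders of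
differentiation `a, b`, names of a rational point `(t, x)` with `t ≥ 0` and of a rational
accuracy `ε > 0`, it returns the name of a rational within `ε` of that mixed derivative. -/
def IsEffective (f : ℝ → V3 → V3) (c : Nat.Partrec.Code) : Prop :=
  ∀ (i : Fin 3) (a : ℕ) (b : ℕ × ℕ × ℕ) (t : QName) (x : QName × QName × QName) (ε : QName),
    0 ≤ qval t → 0 < qval ε →
    ∃ r : QName,
      Encodable.encode r ∈ c.eval (Encodable.encode (((i : ℕ), a, b), t, x, ε)) ∧
      |mixedDeriv f i a b (qval t) (qval x.1, qval x.2.1, qval x.2.2) - qval r| ≤ qval ε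

/-- A computable real number. -/
def IsComputableReal (r : ℝ) : Prop :=
  ∃ g : ℕ → QName, Computable g ∧ ∀ k : ℕ, |r - qval (g k)| ≤ 1 / ((k : ℝ) + 1)

end Vale.Agent.P113
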