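import Mathlib
import Vale.Agent.P113.Defs

namespace Vale.Agent.P113

open Set Filter Topology

/-- The smooth bump `exp(-1/s - 1/(1-s))` on `(0,1)`, zero elsewhere. -/
noncomputable def bump (s : ℝ) : ℝ := expNegInvGlue s * expNegInvGlue (1 - s)

abbrev smoothTop : WithTop ℕ∞ := ((⊤ : ℕ∞) : WithTop ℕ∞)

lemma nat_le_smoothTop (n : ℕ) : (n : WithTop ℕ∞) ≤ smoothTop := by
  have : ((n : ℕ∞) : WithTop ℕ∞) ≤ ((⊤ : ℕ∞) : WithTop ℕ∞) := WithTop.coe_le_coe.2 le_top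
  exact this

lemma contDiff_bump : ContDiff ℝ smoothTop bump :=
  expNegInvGlue.contDiff.mul (expNegInvGlue.contDiff.comp (contDiff_const.sub contDiff_id))

lemma contDiff_bump_nat (n : ℕ) : ContDiff ℝ n bump :=
  contDiff_bump.of_le (nat_le_smoothTop n)

lemma bump_of_nonpos {s : ℝ} (h : s ≤ 0) : bump s = 0 := by
  unfold bump
  rw [expNegInvGlue.zero_of_nonpos h, zero_mul]

lemma bump_of_one_le {s : ℝ} (h : 1 ≤ s) : bump s = 0 := by
  unfold bump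
  rw [expNegInvGlue.zero_of_nonpos (by linarith : 1 - s ≤ 0), mul_zero]

lemma bump_pos {s : ℝ} (h0 : 0 < s) (h1 : s < 1) : 0 < bump s :=
  mul_pos (expNegInvGlue.pos_of_pos h0) (expNegInvGlue.pos_of_pos (by linarith))

lemma bump_nonneg (s : ℝ) : 0 ≤ bump s :=
  mul_nonneg (expNegInvGlue.nonneg _) (expNegInvGlue.nonneg _)

lemma bump_eq {s : ℝ} (h0 : 0 < s) (h1 : s < 1) :
    bump s = Real.exp (-s⁻¹ - (1 - s)⁻¹) := by
  unfold bump expNegInvGlue
  rw [if_neg (not_le.2 h0), if_neg (by linarith : ¬ (1 - s ≤ 0)), ← Real.exp_add]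
  ring_nf

/-! ### Formal derivatives -/

/-- `(p, q, i, j)` stands for `(p - q) x^i y^j`. -/
abbrev Mono := ℕ × ℕ × ℕ × ℕ

noncomputable def evM (m : Mono) (x y : ℝ) : ℝ :=
  ((m.1 : ℝ) - m.2.1) * x ^ m.2.2.1 * y ^ m.2.2.2

noncomputable def evL (L : List Mono) (x y : ℝ) : ℝ := (L.map fun m => evM m x y).sum

def dM (m : Mono) : List Mono :=
  [(m.2.1 * m.2.2.1, m.1 * m.2.2.1, m.2.2.1 + 1, m.2.2.2),
   (m.1 * m.2.2.2, m.2.1 * m.2.2.2, m.2.2.1, m.2.2.2 + 1),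
   (m.1, m.2.1, m.2.2.1 + 2, m.2.2.2),
   (m.2.1, m.1, m.2.2.1, m.2.2.2 + 2)]

def dL (L : List Mono) : List Mono := L.flatMap dM

def bumpPoly (n : ℕ) : List Mono := dL^[n] [(1, 0, 0, 0)]

lemma evL_append (L L' : List Mono) (x y : ℝ) : evL (L ++ L') x y = evL L x y + evL L' x y := by
  simp [evL]

lemma hasDerivAt_evM (m : Mono) {s : ℝ} (h0 : 0 < s) (h1 : s < 1) :
    HasDerivAt (fun s => evM m s⁻¹ (1 - s)⁻¹ * Real.exp (-s⁻¹ - (1 - s)⁻¹))
      (evL (dM m) s⁻¹ (1 - s)⁻¹ * Real.exp (-s⁻¹ - (1 - s)⁻¹)) s := by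
  obtain ⟨p, q, i, j⟩ := m
  have hs : s ≠ 0 := h0.ne'
  have hs1 : (1 - s) ≠ 0 := by linarith
  have dx : HasDerivAt (fun s : ℝ => s⁻¹) (-(s⁻¹ ^ 2)) s := by
    have := hasDerivAt_inv hs
    refine this.congr_deriv ?_
    field_simp
  have dy : HasDerivAt (fun s : ℝ => (1 - s)⁻¹) ((1 - s)⁻¹ ^ 2) s := by
    have := ((hasDerivAt_id s).const_sub 1).fun_inv hs1
    refine this.congr_deriv ?_
    simp only [id]
    field_simp
  have de : HasDerivAt (fun s : ℝ => Real.exp (-s⁻¹ - (1 - s)⁻¹))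
      (Real.exp (-s⁻¹ - (1 - s)⁻¹) * (-(-(s⁻¹ ^ 2)) - (1 - s)⁻¹ ^ 2)) s :=
    (dx.fun_neg.fun_sub dy).exp
  have di : HasDerivAt (fun s : ℝ => s⁻¹ ^ i) (-((i : ℝ) * s⁻¹ ^ (i + 1))) s := by
    refine (dx.fun_pow i).congr_deriv ?_
    rcases i with _ | i
    · simp
    · simp only [Nat.add_sub_cancel]
      ring
  have dj : HasDerivAt (fun s : ℝ => (1 - s)⁻¹ ^ j) ((j : ℝ) * (1 - s)⁻¹ ^ (j + 1)) s := by
    refine (dy.fun_pow j).congr_deriv ?_
    rcases j with _ | j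
    · simp
    · simp only [Nat.add_sub_cancel]
      ring
  have := ((di.const_mul ((p : ℝ) - q)).fun_mul dj).fun_mul de
  refine this.congr_deriv ?_
  simp only [evL, dM, evM, List.map_cons, List.map_nil, List.sum_cons, List.sum_nil]
  push_cast
  ring

lemma hasDerivAt_evL (L : List Mono) {s : ℝ} (h0 : 0 < s) (h1 : s < 1) :
    HasDerivAt (fun s => evL L s⁻¹ (1 - s)⁻¹ * Real.exp (-s⁻¹ - (1 - s)⁻¹))
      (evL (dL L) s⁻¹ (1 - s)⁻¹ * Real.exp (-s⁻¹ - (1 - s)⁻¹)) s := by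
  induction L with
  | nil => simpa [evL, dL] using hasDerivAt_const s (0 : ℝ)
  | cons m L ih =>
    have := (hasDerivAt_evM m h0 h1).fun_add ih
    have e1 : (fun s => evL (m :: L) s⁻¹ (1 - s)⁻¹ * Real.exp (-s⁻¹ - (1 - s)⁻¹))
        = fun s => evM m s⁻¹ (1 - s)⁻¹ * Real.exp (-s⁻¹ - (1 - s)⁻¹)
          + evL L s⁻¹ (1 - s)⁻¹ * Real.exp (-s⁻¹ - (1 - s)⁻¹) := by
      funext s
      simp only [evL, List.map_cons, List.sum_cons]
      ring
    have e2 : evL (dL (m :: L)) s⁻¹ (1 - s)⁻¹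
        = evL (dM m) s⁻¹ (1 - s)⁻¹ + evL (dL L) s⁻¹ (1 - s)⁻¹ := by
      have : dL (m :: L) = dM m ++ dL L := by simp [dL]
      rw [this, evL_append]
    rw [e1, e2, add_mul]
    exact this

lemma iteratedDeriv_bump_Ioo (n : ℕ) : ∀ {s : ℝ}, 0 < s → s < 1 →
    iteratedDeriv n bump s = evL (bumpPoly n) s⁻¹ (1 - s)⁻¹ * Real.exp (-s⁻¹ - (1 - s)⁻¹) := by
  induction n with
  | zero =>
    intro s h0 h1
    simp [bumpPoly, evL, evM, bump_eq h0 h1]
  | succ n ih =>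
    intro s h0 h1
    rw [iteratedDeriv_succ]
    have hn : Ioo (0 : ℝ) 1 ∈ 𝓝 s := isOpen_Ioo.mem_nhds ⟨h0, h1⟩
    have : iteratedDeriv n bump =ᶠ[𝓝 s]
        fun s => evL (bumpPoly n) s⁻¹ (1 - s)⁻¹ * Real.exp (-s⁻¹ - (1 - s)⁻¹) := by
      filter_upwards [hn] with r hr
      exact ih hr.1 hr.2
    rw [this.deriv_eq, (hasDerivAt_evL (bumpPoly n) h0 h1).deriv]
    simp only [bumpPoly, Function.iterate_succ_apply']

/-! ### Functions vanishing outside the unit interval -/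

section vanish

variable {G : ℝ → ℝ}

lemma iteratedDeriv_of_nonpos (hG : ContDiff ℝ smoothTop G) (h0 : ∀ s ≤ 0, G s = 0) (n : ℕ)
    {s : ℝ} (hs : s ≤ 0) : iteratedDeriv n G s = 0 := by
  have hlt : ∀ r < 0, iteratedDeriv n G r = 0 := by
    intro r hr
    have : G =ᶠ[𝓝 r] fun _ => (0 : ℝ) := by
      filter_upwards [Iio_mem_nhds hr] with x hx
      exact h0 x (le_of_lt hx)
    rw [this.iteratedDeriv_eq]
    simp
  have hc : Continuous (iteratedDeriv n G) :=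
    hG.continuous_iteratedDeriv n (nat_le_smoothTop n)
  have hcl : IsClosed {r | iteratedDeriv n G r = 0} := isClosed_eq hc continuous_const
  have hsub : closure (Iio (0 : ℝ)) ⊆ {r | iteratedDeriv n G r = 0} :=
    hcl.closure_subset_iff.2 fun r hr => hlt r hr
  rw [closure_Iio] at hsub
  exact hsub hs

lemma iteratedDeriv_of_one_le (hG : ContDiff ℝ smoothTop G) (h1 : ∀ s, 1 ≤ s → G s = 0) (n : ℕ)
    {s : ℝ} (hs : 1 ≤ s) : iteratedDeriv n G s = 0 := by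
  have hlt : ∀ r, 1 < r → iteratedDeriv n G r = 0 := by
    intro r hr
    have : G =ᶠ[𝓝 r] fun _ => (0 : ℝ) := by
      filter_upwards [Ioi_mem_nhds hr] with x hx
      exact h1 x (le_of_lt hx)
    rw [this.iteratedDeriv_eq]
    simp
  have hc : Continuous (iteratedDeriv n G) :=
    hG.continuous_iteratedDeriv n (nat_le_smoothTop n)
  have hcl : IsClosed {r | iteratedDeriv n G r = 0} := isClosed_eq hc continuous_const
  have hsub : closure (Ioi (1 : ℝ)) ⊆ {r | iteratedDeriv n G r = 0} :=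
    hcl.closure_subset_iff.2 fun r hr => hlt r hr
  rw [closure_Ioi] at hsub
  exact hsub hs

/-- The 1-periodic extension of `G` from `[0,1)`. -/
noncomputable def per (G : ℝ → ℝ) (s : ℝ) : ℝ := G (Int.fract s)

lemma per_eventuallyEq (h0 : ∀ s ≤ 0, G s = 0) (h1 : ∀ s, 1 ≤ s → G s = 0) (s : ℝ) :
    per G =ᶠ[𝓝 s] fun r => G (r - ⌊s⌋) + G (r - (⌊s⌋ - 1)) := by
  have hn : Ioo ((⌊s⌋ : ℝ) - 1) (⌊s⌋ + 1) ∈ 𝓝 s :=
    isOpen_Ioo.mem_nhds ⟨by linarith [Int.floor_le s], Int.lt_floor_add_one s⟩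
  filter_upwards [hn] with r hr
  unfold per
  rcases lt_or_ge r ⌊s⌋ with h | h
  · have hf : ⌊r⌋ = ⌊s⌋ - 1 := by
      rw [Int.floor_eq_iff]
      push_cast
      constructor <;> linarith [hr.1]
    have : Int.fract r = r - (⌊s⌋ - 1) := by
      rw [Int.fract, hf]; push_cast; ring
    rw [this, h0 (r - ⌊s⌋) (by linarith), zero_add]
  · have hf : ⌊r⌋ = ⌊s⌋ := by
      rw [Int.floor_eq_iff]
      constructor <;> linarith [hr.2]
    have : Int.fract r = r - ⌊s⌋ := by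
      rw [Int.fract, hf]
    rw [this, h1 (r - (⌊s⌋ - 1)) (by linarith), add_zero]

lemma contDiff_per (hG : ContDiff ℝ smoothTop G) (h0 : ∀ s ≤ 0, G s = 0)
    (h1 : ∀ s, 1 ≤ s → G s = 0) : ContDiff ℝ smoothTop (per G) := by
  rw [contDiff_iff_contDiffAt]
  intro s
  have h2 : ContDiff ℝ smoothTop fun r => G (r - ⌊s⌋) + G (r - (⌊s⌋ - 1)) :=
    (hG.comp (contDiff_id.sub contDiff_const)).add (hG.comp (contDiff_id.sub contDiff_const))
  exact h2.contDiffAt.congr_of_eventuallyEq (per_eventuallyEq h0 h1 s)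

lemma iteratedDeriv_per (hG : ContDiff ℝ smoothTop G) (h0 : ∀ s ≤ 0, G s = 0)
    (h1 : ∀ s, 1 ≤ s → G s = 0) (n : ℕ) (s : ℝ) :
    iteratedDeriv n (per G) s = iteratedDeriv n G (Int.fract s) := by
  rw [(per_eventuallyEq h0 h1 s).iteratedDeriv_eq]
  have hn : ∀ c : ℝ, ContDiffAt ℝ n (fun r => G (r - c)) s := fun c =>
    ((hG.comp (contDiff_id.sub contDiff_const)).of_le (nat_le_smoothTop n)).contDiffAt
  have e := iteratedDeriv_add (hn ⌊s⌋) (hn (⌊s⌋ - 1))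
  refine e.trans ?_
  have e1 := iteratedDeriv_comp_sub_const n G (⌊s⌋ : ℝ)
  have e2 := iteratedDeriv_comp_sub_const n G ((⌊s⌋ : ℝ) - 1)
  rw [e1, e2]
  simp only
  rw [iteratedDeriv_of_one_le hG h1 n
    (by linarith [Int.floor_le s] : (1 : ℝ) ≤ s - (⌊s⌋ - 1)), add_zero]
  rfl

lemma per_add_int (s : ℝ) (k : ℤ) : per G (s + k) = per G s := by
  unfold per
  rw [Int.fract_add_intCast]

end vanish

end Vale.Agent.P113
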