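import Mathlib
import Vale.Agent.P113.Defs

namespace Vale.Agent.P113

open Set

/-! ### Arithmetic of names of rationals -/

def qadd (x y : QName) : QName :=
  (x.1 * (y.2.2 + 1) + y.1 * (x.2.2 + 1), x.2.1 * (y.2.2 + 1) + y.2.1 * (x.2.2 + 1),
    (x.2.2 + 1) * (y.2.2 + 1) - 1)

def qmul (x y : QName) : QName :=
  (x.1 * y.1 + x.2.1 * y.2.1, x.1 * y.2.1 + x.2.1 * y.1, (x.2.2 + 1) * (y.2.2 + 1) - 1)

def qneg (x : QName) : QName := (x.2.1, x.1, x.2.2)

lemma den_cast (a b : ℕ) : (((a + 1) * (b + 1) - 1 : ℕ) : ℝ) + 1 = ((a : ℝ) + 1) * (b + 1) := by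
  have h : 1 ≤ (a + 1) * (b + 1) := Nat.one_le_iff_ne_zero.2 (by positivity)
  rw [Nat.cast_sub h]
  push_cast
  ring

lemma qval_qadd (x y : QName) : qval (qadd x y) = qval x + qval y := by
  unfold qval qadd
  simp only
  rw [den_cast]
  have h1 : (x.2.2 : ℝ) + 1 ≠ 0 := by positivity
  have h2 : (y.2.2 : ℝ) + 1 ≠ 0 := by positivity
  field_simp
  push_cast
  ring

lemma qval_qmul (x y : QName) : qval (qmul x y) = qval x * qval y := by
  unfold qval qmul
  simp only
  rw [den_cast]
  have h1 : (x.2.2 : ℝ) + 1 ≠ 0 := by positivity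
  have h2 : (y.2.2 : ℝ) + 1 ≠ 0 := by positivity
  field_simp
  push_cast
  ring

lemma qval_qneg (x : QName) : qval (qneg x) = - qval x := by
  unfold qval qneg
  simp only
  ring

lemma primrec_q1 : Primrec (fun q : QName => q.1) := Primrec.fst
lemma primrec_q2 : Primrec (fun q : QName => q.2.1) := Primrec.fst.comp Primrec.snd
lemma primrec_q3 : Primrec (fun q : QName => q.2.2) := Primrec.snd.comp Primrec.snd

section
variable {α : Type} [Primcodable α] {f g h : α → ℕ}

lemma P.add (hf : Primrec f) (hg : Primrec g) : Primrec fun a => f a + g a :=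
  Primrec.nat_add.comp hf hg
lemma P.mul (hf : Primrec f) (hg : Primrec g) : Primrec fun a => f a * g a :=
  Primrec.nat_mul.comp hf hg
lemma P.sub (hf : Primrec f) (hg : Primrec g) : Primrec fun a => f a - g a :=
  Primrec.nat_sub.comp hf hg
lemma P.pow (hf : Primrec f) (hg : Primrec g) : Primrec fun a => f a ^ g a :=
  (Primrec₂.unpaired'.1 Nat.Primrec.pow).comp hf hg
lemma P.mod (hf : Primrec f) (hg : Primrec g) : Primrec fun a => f a % g a :=
  Primrec.nat_mod.comp hf hg
lemma P.c (n : ℕ) : Primrec fun _ : α => n := Primrec.const n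
lemma P.q {f g h : α → ℕ} (hf : Primrec f) (hg : Primrec g) (hh : Primrec h) :
    Primrec fun a => ((f a, g a, h a) : QName) := hf.pair (hg.pair hh)

end

lemma primrec_qadd : Primrec₂ qadd := by
  have x1 : Primrec fun p : QName × QName => p.1.1 := primrec_q1.comp Primrec.fst
  have x2 : Primrec fun p : QName × QName => p.1.2.1 := primrec_q2.comp Primrec.fst
  have x3 : Primrec fun p : QName × QName => p.1.2.2 := primrec_q3.comp Primrec.fst
  have y1 : Primrec fun p : QName × QName => p.2.1 := primrec_q1.comp Primrec.snd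
  have y2 : Primrec fun p : QName × QName => p.2.2.1 := primrec_q2.comp Primrec.snd
  have y3 : Primrec fun p : QName × QName => p.2.2.2 := primrec_q3.comp Primrec.snd
  exact P.q (P.add (P.mul x1 (P.add y3 (P.c 1))) (P.mul y1 (P.add x3 (P.c 1))))
    (P.add (P.mul x2 (P.add y3 (P.c 1))) (P.mul y2 (P.add x3 (P.c 1))))
    (P.sub (P.mul (P.add x3 (P.c 1)) (P.add y3 (P.c 1))) (P.c 1))

lemma primrec_qmul : Primrec₂ qmul := by
  have x1 : Primrec fun p : QName × QName => p.1.1 := primrec_q1.comp Primrec.fst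
  have x2 : Primrec fun p : QName × QName => p.1.2.1 := primrec_q2.comp Primrec.fst
  have x3 : Primrec fun p : QName × QName => p.1.2.2 := primrec_q3.comp Primrec.fst
  have y1 : Primrec fun p : QName × QName => p.2.1 := primrec_q1.comp Primrec.snd
  have y2 : Primrec fun p : QName × QName => p.2.2.1 := primrec_q2.comp Primrec.snd
  have y3 : Primrec fun p : QName × QName => p.2.2.2 := primrec_q3.comp Primrec.snd
  exact P.q (P.add (P.mul x1 y1) (P.mul x2 y2)) (P.add (P.mul x1 y2) (P.mul x2 y1))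
    (P.sub (P.mul (P.add x3 (P.c 1)) (P.add y3 (P.c 1))) (P.c 1))

lemma primrec_qneg : Primrec qneg := P.q primrec_q2 primrec_q1 primrec_q3

lemma abs_qval_le (x : QName) : |qval x| ≤ (x.1 : ℝ) + x.2.1 := by
  unfold qval
  rw [abs_div, abs_of_pos (by positivity : (0 : ℝ) < (x.2.2 : ℝ) + 1)]
  rw [div_le_iff₀ (by positivity)]
  have h1 : |(x.1 : ℝ) - x.2.1| ≤ x.1 + x.2.1 := by
    rw [abs_le]
    constructor
    · have : (0 : ℝ) ≤ x.1 := by positivity
      linarith
    · have : (0 : ℝ) ≤ x.2.1 := by positivity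
      linarith
  have h2 : (0 : ℝ) ≤ (x.1 : ℝ) + x.2.1 := by positivity
  have h3 : (0 : ℝ) ≤ (x.2.2 : ℝ) := by positivity
  nlinarith

/-! ### Computable families of reals -/

/-- `F` is a computable family of real numbers. -/
def CR {α : Type} [Primcodable α] (F : α → ℝ) : Prop :=
  ∃ g : α × ℕ → QName, Computable g ∧ ∀ a k, |F a - qval (g (a, k))| ≤ 1 / ((k : ℝ) + 1)

namespace CR

variable {α β : Type} [Primcodable α] [Primcodable β] {F G : α → ℝ}

lemma congr (hF : CR F) (h : ∀ a, G a = F a) : CR G := by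
  obtain ⟨g, hg, hb⟩ := hF
  exact ⟨g, hg, fun a k => by rw [h]; exact hb a k⟩

lemma exact {q : α → QName} (hq : Computable q) : CR fun a => qval (q a) := by
  refine ⟨fun p => q p.1, hq.comp Computable.fst, fun a k => ?_⟩
  simp only [sub_self, abs_zero]
  positivity

lemma comp (hF : CR F) {h : β → α} (hh : Computable h) : CR fun b => F (h b) := by
  obtain ⟨g, hg, hb⟩ := hF
  exact ⟨fun p => g (h p.1, p.2), hg.comp ((hh.comp Computable.fst).pair Computable.snd),
    fun b k => hb (h b) k⟩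

lemma neg (hF : CR F) : CR fun a => - F a := by
  obtain ⟨g, hg, hb⟩ := hF
  refine ⟨fun p => qneg (g p), primrec_qneg.to_comp.comp hg, fun a k => ?_⟩
  rw [qval_qneg]
  have := hb a k
  rwa [neg_sub_neg, abs_sub_comm]

lemma add (hF : CR F) (hG : CR G) : CR fun a => F a + G a := by
  obtain ⟨f, hf, hfb⟩ := hF
  obtain ⟨g, hg, hgb⟩ := hG
  have hk : Computable fun p : α × ℕ => (p.1, 2 * p.2 + 1) :=
    Computable.fst.pair ((P.add (P.mul (P.c 2) Primrec.id) (P.c 1)).to_comp.comp Computable.snd)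
  refine ⟨fun p => qadd (f (p.1, 2 * p.2 + 1)) (g (p.1, 2 * p.2 + 1)),
    primrec_qadd.to_comp.comp (hf.comp hk) (hg.comp hk), fun a k => ?_⟩
  simp only
  rw [qval_qadd]
  have h1 := hfb a (2 * k + 1)
  have h2 := hgb a (2 * k + 1)
  have h3 : (1 : ℝ) / (((2 * k + 1 : ℕ) : ℝ) + 1) = 1 / ((k : ℝ) + 1) / 2 := by
    push_cast
    field_simp
    ring
  rw [h3] at h1 h2
  have h4 : F a + G a - (qval (f (a, 2 * k + 1)) + qval (g (a, 2 * k + 1)))
      = (F a - qval (f (a, 2 * k + 1))) + (G a - qval (g (a, 2 * k + 1))) := by ring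
  rw [h4]
  exact (abs_add_le _ _).trans (by linarith)

lemma sub (hF : CR F) (hG : CR G) : CR fun a => F a - G a :=
  (hF.add hG.neg).congr fun a => by ring

lemma mul (hF : CR F) (hG : CR G) : CR fun a => F a * G a := by
  obtain ⟨f, hf, hfb⟩ := hF
  obtain ⟨g, hg, hgb⟩ := hG
  let B : α → ℕ := fun a => (f (a, 0)).1 + (f (a, 0)).2.1 + (g (a, 0)).1 + (g (a, 0)).2.1 + 4
  have h0 : Computable fun a : α => (a, 0) := Computable.id.pair (Computable.const 0)
  have hB : Computable B := by
    have e1 : Primrec fun p : QName × QName => p.1.1 + p.1.2.1 + p.2.1 + p.2.2.1 + 4 :=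
      P.add (P.add (P.add (P.add (primrec_q1.comp Primrec.fst) (primrec_q2.comp Primrec.fst))
        (primrec_q1.comp Primrec.snd)) (primrec_q2.comp Primrec.snd)) (P.c 4)
    exact e1.to_comp.comp ((hf.comp h0).pair (hg.comp h0))
  have hk : Computable fun p : α × ℕ => (p.1, (p.2 + 1) * B p.1) := by
    have e1 : Primrec fun p : ℕ × ℕ => (p.1 + 1) * p.2 :=
      P.mul (P.add Primrec.fst (P.c 1)) Primrec.snd
    exact Computable.fst.pair (e1.to_comp.comp (Computable.snd.pair (hB.comp Computable.fst)))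
  refine ⟨fun p => qmul (f (p.1, (p.2 + 1) * B p.1)) (g (p.1, (p.2 + 1) * B p.1)),
    primrec_qmul.to_comp.comp (hf.comp hk) (hg.comp hk), fun a k => ?_⟩
  simp only
  rw [qval_qmul]
  set n := (k + 1) * B a with hn
  have h1 := hfb a n
  have h2 := hgb a n
  have f0 := hfb a 0
  have g0 := hgb a 0
  simp only [Nat.cast_zero, zero_add, div_one] at f0 g0
  have hfa : |F a| ≤ (f (a, 0)).1 + (f (a, 0)).2.1 + 1 := by
    have := abs_qval_le (f (a, 0))
    have e : F a = (F a - qval (f (a, 0))) + qval (f (a, 0)) := by ring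
    rw [e]
    exact (abs_add_le _ _).trans (by linarith)
  have hga : |G a| ≤ (g (a, 0)).1 + (g (a, 0)).2.1 + 1 := by
    have := abs_qval_le (g (a, 0))
    have e : G a = (G a - qval (g (a, 0))) + qval (g (a, 0)) := by ring
    rw [e]
    exact (abs_add_le _ _).trans (by linarith)
  have hn1 : (1 : ℝ) / ((n : ℝ) + 1) ≤ 1 := by
    rw [div_le_one (by positivity)]
    have : (0 : ℝ) ≤ n := by positivity
    linarith
  have hg' : |qval (g (a, n))| ≤ |G a| + 1 := by
    have e : qval (g (a, n)) = G a - (G a - qval (g (a, n))) := by ring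
    rw [e]
    exact (abs_sub _ _).trans (by linarith)
  have hBa : |F a| + |G a| + 1 + 1 ≤ (B a : ℝ) := by
    simp only [B]
    push_cast
    linarith
  have h4 : F a * G a - qval (f (a, n)) * qval (g (a, n))
      = F a * (G a - qval (g (a, n))) + qval (g (a, n)) * (F a - qval (f (a, n))) := by ring
  rw [h4]
  have h5 : |F a * (G a - qval (g (a, n))) + qval (g (a, n)) * (F a - qval (f (a, n)))|
      ≤ |F a| * (1 / ((n : ℝ) + 1)) + (|G a| + 1) * (1 / ((n : ℝ) + 1)) := by
    refine (abs_add_le _ _).trans ?_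
    rw [abs_mul, abs_mul]
    have hp : (0 : ℝ) ≤ 1 / ((n : ℝ) + 1) := by positivity
    exact add_le_add (mul_le_mul_of_nonneg_left h2 (abs_nonneg _))
      (mul_le_mul hg' h1 (abs_nonneg _) (by positivity))
  refine h5.trans ?_
  have h6 : |F a| * (1 / ((n : ℝ) + 1)) + (|G a| + 1) * (1 / ((n : ℝ) + 1))
      = (|F a| + |G a| + 1) / ((n : ℝ) + 1) := by ring
  rw [h6, div_le_div_iff₀ (by positivity) (by positivity)]
  have hnc : (n : ℝ) = ((k : ℝ) + 1) * B a := by
    rw [hn]; push_cast; ring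
  rw [hnc]
  have hk0 : (0 : ℝ) ≤ k := by positivity
  nlinarith [abs_nonneg (F a), abs_nonneg (G a)]

lemma cond {c : α → Bool} (hc : Computable c) (hF : CR F) (hG : CR G) :
    CR fun a => bif c a then F a else G a := by
  obtain ⟨f, hf, hfb⟩ := hF
  obtain ⟨g, hg, hgb⟩ := hG
  refine ⟨fun p => bif c p.1 then f p else g p,
    Computable.cond (hc.comp Computable.fst) hf hg, fun a k => ?_⟩
  cases h : c a
  · simp only [h, cond_false]; exact hgb a k
  · simp only [h, cond_true]; exact hfb a k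

lemma sum {F : α × ℕ → ℝ} (hF : CR F) {N : α → ℕ} (hN : Computable N) :
    CR fun a => ∑ i ∈ Finset.range (N a), F (a, i) := by
  obtain ⟨f, hf, hfb⟩ := hF
  -- accuracy `(k+1) * (N a)` for each summand
  let S : α × ℕ → ℕ → QName := fun p m =>
    Nat.rec ((0, 0, 0) : QName) (fun i acc => qadd acc (f ((p.1, i), (p.2 + 1) * (N p.1)))) m
  let hstep : α × ℕ → ℕ × QName → QName := fun p z =>
    qadd z.2 (f ((p.1, z.1), (p.2 + 1) * (N p.1)))
  have hhs : Computable₂ hstep := by
    have e1 : Computable fun z : (α × ℕ) × (ℕ × QName) =>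
        (((z.1.1, z.2.1), (z.1.2 + 1) * (N z.1.1)) : (α × ℕ) × ℕ) := by
      refine ((Computable.fst.comp Computable.fst).pair
        (Computable.fst.comp Computable.snd)).pair ?_
      have e2 : Primrec fun p : ℕ × ℕ => (p.1 + 1) * p.2 :=
        P.mul (P.add Primrec.fst (P.c 1)) Primrec.snd
      exact e2.to_comp.comp ((Computable.snd.comp Computable.fst).pair
        (hN.comp (Computable.fst.comp Computable.fst)))
    exact (primrec_qadd.to_comp.comp (Computable.snd.comp Computable.snd) (hf.comp e1)).to₂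
  have hS : Computable fun p : α × ℕ => S p (N p.1) :=
    Computable.nat_rec (hN.comp Computable.fst) (Computable.const ((0, 0, 0) : QName)) hhs
  refine ⟨fun p => S p (N p.1), hS, fun a k => ?_⟩
  have hgen : ∀ m, |∑ i ∈ Finset.range m, F (a, i) - qval (S (a, k) m)|
      ≤ m * (1 / (((k + 1) * N a : ℕ) + 1 : ℝ)) := by
    intro m
    induction m with
    | zero => simp [S, qval]
    | succ m ih =>
      rw [Finset.sum_range_succ]
      have e1 : S (a, k) (m + 1) = qadd (S (a, k) m) (f ((a, m), (k + 1) * (N a))) := rfl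
      rw [e1, qval_qadd]
      have e2 : ∑ i ∈ Finset.range m, F (a, i) + F (a, m)
          - (qval (S (a, k) m) + qval (f ((a, m), (k + 1) * N a)))
          = (∑ i ∈ Finset.range m, F (a, i) - qval (S (a, k) m))
            + (F (a, m) - qval (f ((a, m), (k + 1) * N a))) := by ring
      rw [e2]
      refine (abs_add_le _ _).trans ?_
      have := hfb (a, m) ((k + 1) * N a)
      push_cast at this ih ⊢
      linarith
  refine (hgen (N a)).trans ?_
  rw [mul_one_div, div_le_div_iff₀ (by positivity) (by positivity)]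
  push_cast
  have : (0 : ℝ) ≤ N a := by positivity
  nlinarith

lemma exp_neg : CR fun p : ℕ × ℕ => Real.exp (-((p.1 : ℝ) / (p.2 + 1))) := by
  -- `(1 - q/K)^K` with `K = (k+1)(m+1)^2`
  let K : (ℕ × ℕ) × ℕ → ℕ := fun p => (p.2 + 1) * (p.1.1 + 1) ^ 2
  have hK : Primrec K :=
    P.mul (P.add Primrec.snd (P.c 1))
      (P.pow (P.add (Primrec.fst.comp Primrec.fst) (P.c 1)) (P.c 2))
  let g : (ℕ × ℕ) × ℕ → QName := fun p =>
    (((p.1.2 + 1) * K p - p.1.1) ^ (K p), 0, ((p.1.2 + 1) * K p) ^ (K p) - 1)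
  have hg : Primrec g := by
    have e1 : Primrec fun p : (ℕ × ℕ) × ℕ => (p.1.2 + 1) * K p :=
      P.mul (P.add (Primrec.snd.comp Primrec.fst) (P.c 1)) hK
    exact P.q (P.pow (P.sub e1 (Primrec.fst.comp Primrec.fst)) hK) (P.c 0)
      (P.sub (P.pow e1 hK) (P.c 1))
  refine ⟨g, hg.to_comp, fun a k => ?_⟩
  obtain ⟨m, n⟩ := a
  set N : ℕ := (k + 1) * (m + 1) ^ 2 with hN
  have hgv : g ((m, n), k) = (((n + 1) * N - m) ^ N, 0, ((n + 1) * N) ^ N - 1) := rfl
  have hNpos : 0 < N := by positivity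
  have hNm : m ≤ (n + 1) * N := by
    have h1 : m ≤ N := by
      rw [hN]
      nlinarith [Nat.zero_le k, Nat.zero_le m, mul_nonneg (Nat.zero_le k) (Nat.zero_le ((m + 1) ^ 2))]
    nlinarith [Nat.zero_le n, Nat.zero_le N, mul_nonneg (Nat.zero_le n) (Nat.zero_le N)]
  set q : ℝ := (m : ℝ) / (n + 1) with hq
  have hq0 : 0 ≤ q := by positivity
  have hqm : q ≤ m := by
    rw [hq, div_le_iff₀ (by positivity)]
    have : (0 : ℝ) ≤ (m : ℝ) * n := by positivity
    nlinarith
  have hval : qval (g ((m, n), k)) = (1 - q / N) ^ N := by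
    rw [hgv]
    unfold qval
    simp only
    have h1 : 1 ≤ ((n + 1) * N) ^ N := Nat.one_le_iff_ne_zero.2 (by positivity)
    rw [Nat.cast_sub h1]
    push_cast
    rw [Nat.cast_sub hNm]
    push_cast
    rw [sub_zero, sub_add_cancel, ← div_pow]
    congr 1
    rw [hq]
    have : (N : ℝ) ≠ 0 := by positivity
    have : (n : ℝ) + 1 ≠ 0 := by positivity
    field_simp
  rw [hval]
  have hNr : (0 : ℝ) < N := by exact_mod_cast hNpos
  have hxN : q / N ≤ 1 := by
    rw [div_le_one hNr]
    refine hqm.trans ?_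
    have h1 : m ≤ N := by
      rw [hN]
      nlinarith [Nat.zero_le k, Nat.zero_le m, mul_nonneg (Nat.zero_le k) (Nat.zero_le ((m + 1) ^ 2))]
    exact_mod_cast h1
  set x : ℝ := q / N with hx
  have hx0 : 0 ≤ x := by positivity
  have hexp : Real.exp (-q) = (Real.exp (-x)) ^ N := by
    rw [← Real.exp_nat_mul]
    congr 1
    rw [hx]
    field_simp
  have hA1 : 1 - x ≤ Real.exp (-x) := by
    have := Real.add_one_le_exp (-x)
    linarith
  have hA2 : Real.exp (-x) ≤ 1 - x + x ^ 2 := by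
    have h1 := Real.abs_exp_sub_one_sub_id_le (x := -x) (by rw [abs_neg, abs_of_nonneg hx0]; exact hxN)
    have h2 := (abs_le.1 h1).2
    nlinarith
  have hA3 : Real.exp (-x) ≤ 1 := Real.exp_le_one_iff.2 (by linarith)
  have hpow : (Real.exp (-x)) ^ N - (1 - x) ^ N ≤ N * x ^ 2 := by
    have key : ∀ n : ℕ, (Real.exp (-x)) ^ n - (1 - x) ^ n ≤ n * x ^ 2 := by
      intro n
      induction n with
      | zero => simp
      | succ n ih =>
        have e0 : 0 ≤ Real.exp (-x) := (Real.exp_pos _).le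
        have e1 : (1 - x) ^ n ≤ 1 := pow_le_one₀ (by linarith) (by linarith)
        have e2 : 0 ≤ (1 - x) ^ n := pow_nonneg (by linarith) _
        have e3 : (Real.exp (-x)) ^ (n + 1) - (1 - x) ^ (n + 1)
            = Real.exp (-x) * ((Real.exp (-x)) ^ n - (1 - x) ^ n)
              + (1 - x) ^ n * (Real.exp (-x) - (1 - x)) := by ring
        rw [e3]
        have e4 : Real.exp (-x) * ((Real.exp (-x)) ^ n - (1 - x) ^ n)
            ≤ (Real.exp (-x)) ^ n - (1 - x) ^ n := by
          have : 0 ≤ (Real.exp (-x)) ^ n - (1 - x) ^ n := by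
            have := pow_le_pow_left₀ (by linarith) hA1 n
            linarith
          nlinarith
        have e5 : (1 - x) ^ n * (Real.exp (-x) - (1 - x)) ≤ x ^ 2 := by
          have h6 : 0 ≤ Real.exp (-x) - (1 - x) := by linarith
          have h7 : Real.exp (-x) - (1 - x) ≤ x ^ 2 := by linarith
          nlinarith
        push_cast
        linarith
    exact key N
  have hlow : (1 - x) ^ N ≤ (Real.exp (-x)) ^ N := pow_le_pow_left₀ (by linarith) hA1 N
  change |Real.exp (-((m : ℝ) / (n + 1))) - (1 - x) ^ N| ≤ _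
  rw [← hq, hexp, abs_of_nonneg (by linarith)]
  refine hpow.trans ?_
  have e1 : (N : ℝ) * x ^ 2 = q ^ 2 / N := by
    rw [hx]; field_simp
  rw [e1, div_le_div_iff₀ hNr (by positivity)]
  have hNc : (N : ℝ) = ((k : ℝ) + 1) * (m + 1) ^ 2 := by
    rw [hN]; push_cast; ring
  rw [hNc]
  have hk0 : (0 : ℝ) ≤ k := by positivity
  have hm0 : (0 : ℝ) ≤ m := by positivity
  have hq2 : q ^ 2 ≤ (m + 1 : ℝ) ^ 2 := pow_le_pow_left₀ hq0 (by linarith) 2
  nlinarith

end CR

end Vale.Agent.P113
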