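import Mathlib
import Vale.Agent.P113.Defs

namespace Vale.Agent.P113

open Set MeasureTheory

lemma integral_div_zero (G : Fin 3 → V3 → ℝ) (hG : ∀ i, ContDiff ℝ 1 (G i))
    (hper : ∀ i, SpacePeriodic (G i)) :
    ∫ x in Icc (0 : V3) 1, ∑ i, pd i (G i) x = 0 := by
  have hle : (0 : V3) ≤ 1 := fun i => by simp
  have key := integral_divergence_of_hasFDerivAt_off_countable' (n := 2) (E := ℝ)
    (0 : V3) 1 hle G (fun i x => fderiv ℝ (G i) x) ∅ (by simp)
    (fun i => (hG i).continuous.continuousOn)
    (fun x _ i => ((hG i).differentiable (by norm_num) x).hasFDerivAt)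
    (by
      apply ContinuousOn.integrableOn_compact isCompact_Icc
      apply Continuous.continuousOn
      apply continuous_finset_sum
      intro i _
      exact ((hG i).continuous_fderiv (by norm_num)).clm_apply continuous_const)
  unfold pd
  refine Eq.trans ?_ (key.trans ?_)
  · rfl
  · apply Finset.sum_eq_zero
    intro i _
    rw [sub_eq_zero]
    apply integral_congr_ae
    refine Filter.Eventually.of_forall ?_
    intro y
    have := hper i (i.insertNth ((0 : V3) i) y) (Pi.single i 1)
    simp only
    rw [← this]
    congr 1
    funext j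
    rcases eq_or_ne j i with rfl | hj
    · simp
    · obtain ⟨k, rfl⟩ := Fin.exists_succAbove_eq hj
      simp [Pi.single_apply, hj]

end Vale.Agent.P113
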