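import Mathlib
import Vale.Agent.P113.DivThm

namespace Vale.Agent.P113

open Set MeasureTheory

section pdlemmas

variable {g h : V3 → ℝ} {x : V3} (j : Fin 3)

lemma pd_add (hg : DifferentiableAt ℝ g x) (hh : DifferentiableAt ℝ h x) :
    pd j (fun y => g y + h y) x = pd j g x + pd j h x := by
  unfold pd
  have : fderiv ℝ (fun y => g y + h y) x = fderiv ℝ g x + fderiv ℝ h x := fderiv_add hg hh
  rw [this]; rfl

lemma pd_sub (hg : DifferentiableAt ℝ g x) (hh : DifferentiableAt ℝ h x) :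
    pd j (fun y => g y - h y) x = pd j g x - pd j h x := by
  unfold pd
  have : fderiv ℝ (fun y => g y - h y) x = fderiv ℝ g x - fderiv ℝ h x := fderiv_sub hg hh
  rw [this]; rfl

lemma pd_mul (hg : DifferentiableAt ℝ g x) (hh : DifferentiableAt ℝ h x) :
    pd j (fun y => g y * h y) x = g x * pd j h x + h x * pd j g x := by
  unfold pd
  have : fderiv ℝ (fun y => g y * h y) x = g x • fderiv ℝ h x + h x • fderiv ℝ g x :=
    fderiv_mul hg hh
  rw [this]; rfl

lemma pd_const_mul (c : ℝ) (hg : DifferentiableAt ℝ g x) :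
    pd j (fun y => c * g y) x = c * pd j g x := by
  unfold pd
  have : fderiv ℝ (fun y => c * g y) x = c • fderiv ℝ g x := fderiv_const_mul hg c
  rw [this]; rfl

lemma pd_sum {F : Fin 3 → V3 → ℝ} (hF : ∀ i, DifferentiableAt ℝ (F i) x) :
    pd j (fun y => ∑ i, F i y) x = ∑ i, pd j (F i) x := by
  unfold pd
  have : fderiv ℝ (fun y => ∑ i, F i y) x = ∑ i, fderiv ℝ (F i) x := by
    rw [fderiv_fun_sum]
    intro i _
    exact hF i
  rw [this]
  simp

end pdlemmas

lemma contDiff_pd {g : V3 → ℝ} {n : WithTop ℕ∞} (hg : ContDiff ℝ (n + 1) g) (j : Fin 3) :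
    ContDiff ℝ n (pd j g) := by
  unfold pd
  exact (hg.fderiv_right le_rfl).clm_apply contDiff_const

lemma periodic_pd {g : V3 → ℝ} (hg : SpacePeriodic g) (j : Fin 3) :
    SpacePeriodic (pd j g) := by
  intro x k
  unfold pd
  have h1 : (fun y : V3 => g (y + (fun i => (k i : ℝ)))) = g := by
    funext y
    exact hg y k
  have h2 := fderiv_comp_add_right (𝕜 := ℝ) (f := g) (x := x) (fun i => (k i : ℝ))
  rw [h1] at h2
  rw [h2]
  rfl

lemma SpacePeriodic.mul {g h : V3 → ℝ} (hg : SpacePeriodic g) (hh : SpacePeriodic h) :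
    SpacePeriodic (fun x => g x * h x) := by
  intro x k
  simp only [hg x k, hh x k]

lemma SpacePeriodic.sub {g h : V3 → ℝ} (hg : SpacePeriodic g) (hh : SpacePeriodic h) :
    SpacePeriodic (fun x => g x - h x) := by
  intro x k
  simp only [hg x k, hh x k]

lemma SpacePeriodic.sum {F : Fin 3 → V3 → ℝ} (hF : ∀ i, SpacePeriodic (F i)) :
    SpacePeriodic (fun x => ∑ i, F i x) := by
  intro x k
  simp only [fun i => hF i x k]

/-- The key energy inequality at a fixed time. -/
lemma energy_slice (ν : ℝ) (hν : 0 ≤ ν) (U V : Fin 3 → V3 → ℝ) (P Q : V3 → ℝ)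
    (hU : ∀ i, ContDiff ℝ 2 (U i)) (hV : ∀ i, ContDiff ℝ 2 (V i))
    (hP : ContDiff ℝ 1 P) (hQ : ContDiff ℝ 1 Q)
    (pU : ∀ i, SpacePeriodic (U i)) (pV : ∀ i, SpacePeriodic (V i))
    (pP : SpacePeriodic P) (pQ : SpacePeriodic Q)
    (dU : ∀ x, ∑ i, pd i (U i) x = 0) (dV : ∀ x, ∑ i, pd i (V i) x = 0)
    (a b : Fin 3 → V3 → ℝ) (ha : ∀ i, Continuous (a i)) (hb : ∀ i, Continuous (b i))
    (F : V3 → V3)
    (mU : ∀ x i, a i x + ∑ j, U j x * pd j (U i) x
      = - pd i P x + ν * ∑ j, pd j (pd j (U i)) x + F x i)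
    (mV : ∀ x i, b i x + ∑ j, V j x * pd j (V i) x
      = - pd i Q x + ν * ∑ j, pd j (pd j (V i)) x + F x i)
    (K : ℝ) (hK : ∀ x ∈ Icc (0 : V3) 1, ∀ i j, |pd j (U i) x| ≤ K) :
    ∫ x in Icc (0 : V3) 1, ∑ i, (V i x - U i x) * (b i x - a i x)
      ≤ (3 * K) * ∫ x in Icc (0 : V3) 1, ∑ i, (V i x - U i x) ^ 2 := by
  -- the difference
  set W : Fin 3 → V3 → ℝ := fun i x => V i x - U i x with hWdef
  have hW : ∀ i, ContDiff ℝ 2 (W i) := fun i => (hV i).sub (hU i)
  have pW : ∀ i, SpacePeriodic (W i) := fun i => (pV i).sub (pU i)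
  have hWp : ∀ i j, ContDiff ℝ 1 (pd j (W i)) := fun i j =>
    contDiff_pd (n := 1) (by rw [one_add_one_eq_two]; exact hW i) j
  have hW1 : ∀ i, ContDiff ℝ 1 (W i) := fun i => (hW i).of_le (by norm_num)
  have hV1 : ∀ i, ContDiff ℝ 1 (V i) := fun i => (hV i).of_le (by norm_num)
  have hU1 : ∀ i, ContDiff ℝ 1 (U i) := fun i => (hU i).of_le (by norm_num)
  have dif : ∀ {g : V3 → ℝ}, ContDiff ℝ 1 g → ∀ x, DifferentiableAt ℝ g x := fun hg x =>
    hg.differentiable (by norm_num) x
  set S : V3 → ℝ := fun x => ∑ i, W i x * W i x with hS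
  have hS1 : ContDiff ℝ 1 S := ContDiff.sum fun i _ => (hW1 i).mul (hW1 i)
  set R : V3 → ℝ := fun x => Q x - P x with hR
  have hR1 : ContDiff ℝ 1 R := hQ.sub hP
  set N : Fin 3 → V3 → ℝ := fun j x => ∑ i, W i x * pd j (W i) x with hN
  have hN1 : ∀ j, ContDiff ℝ 1 (N j) := fun j =>
    ContDiff.sum fun i _ => (hW1 i).mul (hWp i j)
  let G : Fin 3 → V3 → ℝ := fun j x => ν * N j x - (1 / 2 * (V j x * S x)) - W j x * R x
  have hG : ∀ j, ContDiff ℝ 1 (G j) := fun j =>
    ((contDiff_const.mul (hN1 j)).sub (contDiff_const.mul ((hV1 j).mul hS1))).sub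
      ((hW1 j).mul hR1)
  have pN : ∀ j, SpacePeriodic (N j) := fun j =>
    SpacePeriodic.sum fun i => (pW i).mul (periodic_pd (pW i) j)
  have pS : SpacePeriodic S := SpacePeriodic.sum fun i => (pW i).mul (pW i)
  have pG : ∀ j, SpacePeriodic (G j) := by
    intro j x k
    simp only [G]
    rw [pN j x k, pV j x k, pS x k, pW j x k]
    simp only [hR, pQ x k, pP x k]
  have hint := integral_div_zero G hG pG
  -- pointwise derivative of G
  have hpdW : ∀ i j x, pd j (W i) x = pd j (V i) x - pd j (U i) x := fun i j x =>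
    pd_sub j (dif (hV1 i) x) (dif (hU1 i) x)
  have hpdW' : ∀ i j, pd j (W i) = fun x => pd j (V i) x - pd j (U i) x := fun i j => by
    funext x; exact hpdW i j x
  have hpddW : ∀ i j x, pd j (pd j (W i)) x = pd j (pd j (V i)) x - pd j (pd j (U i)) x := by
    intro i j x
    rw [hpdW' i j]
    exact pd_sub j (dif (contDiff_pd (n := 1) (by rw [one_add_one_eq_two]; exact hV i) j) x)
      (dif (contDiff_pd (n := 1) (by rw [one_add_one_eq_two]; exact hU i) j) x)
  have hpdR : ∀ j x, pd j R x = pd j Q x - pd j P x := fun j x =>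
    pd_sub j (dif hQ x) (dif hP x)
  have hpdN : ∀ j x, pd j (N j) x
      = ∑ i, (W i x * pd j (pd j (W i)) x + pd j (W i) x * pd j (W i) x) := by
    intro j x
    change pd j (fun x => ∑ i, W i x * pd j (W i) x) x = _
    rw [pd_sum j (F := fun i x => W i x * pd j (W i) x)
      (fun i => (dif (hW1 i) x).mul (dif (hWp i j) x))]
    apply Finset.sum_congr rfl
    intro i _
    exact pd_mul j (dif (hW1 i) x) (dif (hWp i j) x)
  have hpdS : ∀ j x, pd j S x = ∑ i, 2 * (W i x * pd j (W i) x) := by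
    intro j x
    change pd j (fun x => ∑ i, W i x * W i x) x = _
    rw [pd_sum j (F := fun i x => W i x * W i x) (fun i => (dif (hW1 i) x).mul (dif (hW1 i) x))]
    apply Finset.sum_congr rfl
    intro i _
    rw [pd_mul j (dif (hW1 i) x) (dif (hW1 i) x)]
    ring
  have hpdG : ∀ j x, pd j (G j) x = ν * pd j (N j) x
      - 1 / 2 * (V j x * pd j S x + S x * pd j (V j) x)
      - (W j x * pd j R x + R x * pd j (W j) x) := by
    intro j x
    have d1 : DifferentiableAt ℝ (fun x => ν * N j x) x := (dif (hN1 j) x).const_mul ν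
    have d2 : DifferentiableAt ℝ (fun x => 1 / 2 * (V j x * S x)) x :=
      ((dif (hV1 j) x).mul (dif hS1 x)).const_mul _
    have d3 : DifferentiableAt ℝ (fun x => W j x * R x) x := (dif (hW1 j) x).mul (dif hR1 x)
    have e1 := pd_sub j (d1.sub d2) d3
    have e2 := pd_sub j d1 d2
    have e3 := pd_const_mul j ν (dif (hN1 j) x)
    have e4 := pd_const_mul j (1 / 2 : ℝ) ((dif (hV1 j) x).mul (dif hS1 x))
    have e5 := pd_mul j (dif (hV1 j) x) (dif hS1 x)
    have e6 := pd_mul j (dif (hW1 j) x) (dif hR1 x)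
    simp only [G]
    refine e1.trans ?_
    rw [e6]
    congr 1
    refine e2.trans ?_
    rw [e3]
    congr 1
    refine e4.trans ?_
    congr 1
  have hdW : ∀ x, ∑ i, pd i (W i) x = 0 := by
    intro x
    simp only [hpdW, Finset.sum_sub_distrib, dU, dV, sub_zero]
  -- pointwise inequality
  have hpt : ∀ x ∈ Icc (0 : V3) 1, ∑ i, (V i x - U i x) * (b i x - a i x)
      ≤ (∑ j, pd j (G j) x) + (3 * K) * ∑ i, (V i x - U i x) ^ 2 := by
    intro x hx
    have hVW : ∀ i, V i x = W i x + U i x := fun i => by simp [hWdef]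
    have hba : ∀ i, b i x - a i x = - (∑ j, V j x * pd j (W i) x) - (∑ j, W j x * pd j (U i) x)
        - pd i R x + ν * ∑ j, pd j (pd j (W i)) x := by
      intro i
      have m1 := mU x i
      have m2 := mV x i
      simp only [hpdW, hpddW, hpdR]
      simp only [Fin.sum_univ_three] at m1 m2 ⊢
      simp only [hWdef]
      linarith
    have hKb : ∀ i j, - (W i x * W j x * pd j (U i) x) ≤ K * ((W i x) ^ 2 + (W j x) ^ 2) / 2 := by
      intro i j
      have h1 : |pd j (U i) x| ≤ K := hK x hx i j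
      have hK0 : 0 ≤ K := (abs_nonneg _).trans h1
      have h2 : |W i x * W j x| ≤ ((W i x) ^ 2 + (W j x) ^ 2) / 2 := by
        rw [abs_mul]
        nlinarith [sq_nonneg (|W i x| - |W j x|), sq_abs (W i x), sq_abs (W j x)]
      calc - (W i x * W j x * pd j (U i) x) ≤ |W i x * W j x * pd j (U i) x| := neg_le_abs _
        _ = |W i x * W j x| * |pd j (U i) x| := abs_mul _ _
        _ ≤ ((W i x) ^ 2 + (W j x) ^ 2) / 2 * K :=
            mul_le_mul h2 h1 (abs_nonneg _) (by positivity)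
        _ = K * ((W i x) ^ 2 + (W j x) ^ 2) / 2 := by ring
    have hdV := dV x
    have hdW' := hdW x
    have hsum : ∑ i, (V i x - U i x) * (b i x - a i x)
        = (∑ j, pd j (G j) x) - ν * (∑ i, ∑ j, pd j (W i) x * pd j (W i) x)
          - ∑ i, ∑ j, W i x * W j x * pd j (U i) x := by
      have e : ∑ i, (V i x - U i x) * (b i x - a i x) = ∑ i, W i x * (b i x - a i x) := rfl
      rw [e]
      have hSx : S x = ∑ i, W i x * W i x := rfl
      simp only [hba, hpdG, hpdN, hpdS, hSx]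
      simp only [Fin.sum_univ_three] at hdV hdW' ⊢
      linear_combination (-(1 / 2) * (W 0 x * W 0 x + W 1 x * W 1 x + W 2 x * W 2 x)) * hdV * (-1)
        + R x * hdW'
    rw [hsum]
    have hpos : 0 ≤ ν * (∑ i, ∑ j, pd j (W i) x * pd j (W i) x) := by
      apply mul_nonneg hν
      apply Finset.sum_nonneg; intro i _
      apply Finset.sum_nonneg; intro j _
      exact mul_self_nonneg _
    have hfin : - ∑ i, ∑ j, W i x * W j x * pd j (U i) x ≤ (3 * K) * ∑ i, (V i x - U i x) ^ 2 := by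
      have e : ∑ i, (V i x - U i x) ^ 2 = ∑ i, (W i x) ^ 2 := rfl
      rw [e]
      have := hKb
      simp only [Fin.sum_univ_three]
      linarith [hKb 0 0, hKb 0 1, hKb 0 2, hKb 1 0, hKb 1 1, hKb 1 2, hKb 2 0, hKb 2 1, hKb 2 2]
    linarith
  have c1 : Continuous fun x => ∑ i, (V i x - U i x) * (b i x - a i x) :=
    continuous_finsetSum _ fun i _ => ((hV1 i).continuous.sub (hU1 i).continuous).mul
      ((hb i).sub (ha i))
  have c2 : Continuous fun x => ∑ j, pd j (G j) x :=
    continuous_finsetSum _ fun j _ => (contDiff_pd (n := 0) (by simpa using hG j) j).continuous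
  have c3 : Continuous fun x => ∑ i, (V i x - U i x) ^ 2 :=
    continuous_finsetSum _ fun i _ => ((hV1 i).continuous.sub (hU1 i).continuous).pow 2
  have hI : ∀ {g : V3 → ℝ}, Continuous g → IntegrableOn g (Icc (0 : V3) 1) := fun hg =>
    hg.continuousOn.integrableOn_compact isCompact_Icc
  calc ∫ x in Icc (0 : V3) 1, ∑ i, (V i x - U i x) * (b i x - a i x)
      ≤ ∫ x in Icc (0 : V3) 1, ((∑ j, pd j (G j) x) + (3 * K) * ∑ i, (V i x - U i x) ^ 2) :=
        setIntegral_mono_on (hI c1) (hI (c2.add (continuous_const.mul c3)))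
          measurableSet_Icc hpt
    _ = (∫ x in Icc (0 : V3) 1, ∑ j, pd j (G j) x)
        + ∫ x in Icc (0 : V3) 1, (3 * K) * ∑ i, (V i x - U i x) ^ 2 :=
        integral_add (hI c2) (hI (continuous_const.mul c3))
    _ = (3 * K) * ∫ x in Icc (0 : V3) 1, ∑ i, (V i x - U i x) ^ 2 := by
        rw [hint, zero_add, integral_const_mul]

end Vale.Agent.P113
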