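import Mathlib
import Vale.Agent.P113.Bump

namespace Vale.Agent.P113

open Set Filter Topology

lemma exists_bound_bump (n : ℕ) : ∃ C : ℝ, 0 ≤ C ∧ ∀ s, |iteratedDeriv n bump s| ≤ C := by
  have hc : Continuous (iteratedDeriv n bump) :=
    contDiff_bump.continuous_iteratedDeriv n (nat_le_smoothTop n)
  obtain ⟨C, hC⟩ := (isCompact_Icc (a := (0 : ℝ)) (b := 1)).exists_bound_of_continuousOn
    hc.continuousOn
  refine ⟨|C|, abs_nonneg _, fun s => ?_⟩
  rcases le_or_gt s 0 with h | h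
  · rw [iteratedDeriv_of_nonpos contDiff_bump (fun s hs => bump_of_nonpos hs) n h]
    simp
  rcases le_or_gt 1 s with h' | h'
  · rw [iteratedDeriv_of_one_le contDiff_bump (fun s hs => bump_of_one_le hs) n h']
    simp
  · exact (hC s ⟨h.le, h'.le⟩).trans (le_abs_self _)

/-- One summand of the field. -/
noncomputable def fterm (v : ℕ → ℝ) (e : ℕ) (s : ℝ) : ℝ :=
  v e * (1 / 2) ^ ((e + 2) ^ 2) * bump (2 ^ (e + 2) * s - 1)

/-- The field profile. -/
noncomputable def field (v : ℕ → ℝ) (s : ℝ) : ℝ := ∑' e, fterm v e s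

lemma contDiff_fterm (v : ℕ → ℝ) (e : ℕ) : ContDiff ℝ smoothTop (fterm v e) :=
  contDiff_const.mul (contDiff_bump.comp ((contDiff_const.mul contDiff_id).sub contDiff_const))

lemma iteratedDeriv_fterm (v : ℕ → ℝ) (e n : ℕ) (s : ℝ) :
    iteratedDeriv n (fterm v e) s
      = v e * (1 / 2) ^ ((e + 2) ^ 2) * ((2 ^ (e + 2)) ^ n *
          iteratedDeriv n bump (2 ^ (e + 2) * s - 1)) := by
  have h1 : fterm v e = fun s => (v e * (1 / 2) ^ ((e + 2) ^ 2)) *
      (fun r => (fun x => bump (x - 1)) (2 ^ (e + 2) * r)) s := rfl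
  rw [h1, iteratedDeriv_const_mul_field]
  congr 1
  have h2 : ContDiff ℝ n fun x : ℝ => bump (x - 1) :=
    (contDiff_bump_nat n).comp (contDiff_id.sub contDiff_const)
  rw [iteratedDeriv_comp_const_mul h2]
  simp only
  rw [iteratedDeriv_comp_sub_const]

lemma fterm_zero_of_le (v : ℕ → ℝ) (e : ℕ) {s : ℝ} (h : 2 ^ (e + 2) * s ≤ 1) :
    fterm v e s = 0 := by
  unfold fterm
  rw [bump_of_nonpos (by linarith), mul_zero]

lemma fterm_zero_of_ge (v : ℕ → ℝ) (e : ℕ) {s : ℝ} (h : 2 ≤ 2 ^ (e + 2) * s) :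
    fterm v e s = 0 := by
  unfold fterm
  rw [bump_of_one_le (by linarith), mul_zero]

lemma pow_aux (m n : ℕ) (hm : 2 ≤ m) : m * n + m ≤ n ^ 2 + m ^ 2 := by
  have h : (m * n + m : ℤ) ≤ n ^ 2 + m ^ 2 := by
    have h2 : (2 : ℤ) ≤ m := by exact_mod_cast hm
    nlinarith [sq_nonneg ((2 : ℤ) * n - m), mul_nonneg (by linarith : (0 : ℤ) ≤ m)
      (by linarith : (0 : ℤ) ≤ m - 2)]
  exact_mod_cast h

lemma contDiff_field (v : ℕ → ℝ) (hv : ∀ e, |v e| ≤ 1) : ContDiff ℝ smoothTop (field v) := by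
  choose C hC0 hC using exists_bound_bump
  refine contDiff_tsum (N := (⊤ : ℕ∞)) (v := fun n e => C n * 2 ^ (n ^ 2) * (1 / 2) ^ (e + 2))
    (fun e => contDiff_fterm v e) ?_ ?_
  · intro k _
    apply Summable.mul_left
    exact (summable_geometric_of_lt_one (by norm_num) (by norm_num)).comp_injective
      (add_left_injective 2)
  · intro k e s _
    rw [norm_iteratedFDeriv_eq_norm_iteratedDeriv, iteratedDeriv_fterm, Real.norm_eq_abs]
    rw [abs_mul, abs_mul, abs_mul]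
    have h1 : |(1 / 2 : ℝ) ^ ((e + 2) ^ 2)| = (1 / 2) ^ ((e + 2) ^ 2) := abs_of_pos (by positivity)
    have h2 : |((2 : ℝ) ^ (e + 2)) ^ k| = (2 ^ (e + 2)) ^ k := abs_of_pos (by positivity)
    rw [h1, h2]
    have h3 : (1 / 2 : ℝ) ^ ((e + 2) ^ 2) * (2 ^ (e + 2)) ^ k ≤ 2 ^ (k ^ 2) * (1 / 2) ^ (e + 2) := by
      have hp : (2 : ℝ) ^ ((e + 2) * k) * 2 ^ (e + 2) ≤ 2 ^ (k ^ 2) * 2 ^ ((e + 2) ^ 2) := by
        rw [← pow_add, ← pow_add]
        exact pow_le_pow_right₀ (by norm_num) (pow_aux (e + 2) k (by omega))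
      rw [pow_mul] at hp
      have e1 : (1 / 2 : ℝ) ^ ((e + 2) ^ 2) = (2 ^ ((e + 2) ^ 2))⁻¹ := by
        rw [one_div, inv_pow]
      have e2 : (1 / 2 : ℝ) ^ (e + 2) = (2 ^ (e + 2))⁻¹ := by
        rw [one_div, inv_pow]
      rw [e1, e2, inv_mul_le_iff₀ (by positivity), ← div_eq_mul_inv, ← mul_div_assoc,
        le_div_iff₀ (by positivity)]
      linarith
    calc |v e| * (1 / 2) ^ ((e + 2) ^ 2) * ((2 ^ (e + 2)) ^ k *
          |iteratedDeriv k bump (2 ^ (e + 2) * s - 1)|)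
        ≤ 1 * (1 / 2) ^ ((e + 2) ^ 2) * ((2 ^ (e + 2)) ^ k * C k) := by
          gcongr
          · exact hv e
          · exact hC k _
      _ = C k * ((1 / 2) ^ ((e + 2) ^ 2) * (2 ^ (e + 2)) ^ k) := by ring
      _ ≤ C k * (2 ^ (k ^ 2) * (1 / 2) ^ (e + 2)) := by
          apply mul_le_mul_of_nonneg_left h3 (hC0 k)
      _ = C k * 2 ^ (k ^ 2) * (1 / 2) ^ (e + 2) := by ring

lemma field_of_nonpos (v : ℕ → ℝ) {s : ℝ} (h : s ≤ 0) : field v s = 0 := by
  unfold field
  have : ∀ e, fterm v e s = 0 := fun e => fterm_zero_of_le v e (by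
    have : (2 : ℝ) ^ (e + 2) * s ≤ 0 := mul_nonpos_of_nonneg_of_nonpos (by positivity) h
    linarith)
  simp [this]

lemma field_of_one_le (v : ℕ → ℝ) {s : ℝ} (h : 1 ≤ s) : field v s = 0 := by
  unfold field
  have : ∀ e, fterm v e s = 0 := fun e => fterm_zero_of_ge v e (by
    have h1 : (4 : ℝ) ≤ 2 ^ (e + 2) := by
      rw [pow_add]
      have : (1 : ℝ) ≤ 2 ^ e := one_le_pow₀ (by norm_num)
      linarith
    nlinarith)
  simp [this]

/-- The value of the field at the point used for the code `e`. -/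
lemma field_at (v : ℕ → ℝ) (e : ℕ) {s : ℝ} (h1 : 1 < 2 ^ (e + 2) * s) (h2 : 2 ^ (e + 2) * s < 2) :
    field v s = v e * (1 / 2) ^ ((e + 2) ^ 2) * bump (2 ^ (e + 2) * s - 1) := by
  have hs : 0 < s := by
    by_contra hcon
    push Not at hcon
    have : (2 : ℝ) ^ (e + 2) * s ≤ 0 := mul_nonpos_of_nonneg_of_nonpos (by positivity) hcon
    linarith
  unfold field
  rw [tsum_eq_single e]
  · rfl
  · intro e' he'
    rcases lt_or_gt_of_ne he' with h | h
    · apply fterm_zero_of_le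
      have : (2 : ℝ) ^ (e' + 2) * 2 ≤ 2 ^ (e + 2) := by
        rw [← pow_succ]
        exact pow_le_pow_right₀ (by norm_num) (by omega)
      nlinarith
    · apply fterm_zero_of_ge
      have : (2 : ℝ) ^ (e + 2) * 2 ≤ 2 ^ (e' + 2) := by
        rw [← pow_succ]
        exact pow_le_pow_right₀ (by norm_num) (by omega)
      nlinarith

/-- Derivatives of the field as finite sums. -/
lemma iteratedDeriv_field (v : ℕ → ℝ) (hv : ∀ e, |v e| ≤ 1) (n N : ℕ) {s : ℝ}
    (hs : s ≤ 0 ∨ 1 < 2 ^ (N + 1) * s) :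
    iteratedDeriv n (field v) s
      = ∑ e ∈ Finset.range N, v e * (1 / 2) ^ ((e + 2) ^ 2) * ((2 ^ (e + 2)) ^ n *
          iteratedDeriv n bump (2 ^ (e + 2) * s - 1)) := by
  rcases hs with hs | hs
  · rw [iteratedDeriv_of_nonpos (contDiff_field v hv) (fun s hs => field_of_nonpos v hs) n hs]
    symm
    apply Finset.sum_eq_zero
    intro e _
    have : (2 : ℝ) ^ (e + 2) * s ≤ 0 := mul_nonpos_of_nonneg_of_nonpos (by positivity) hs
    rw [iteratedDeriv_of_nonpos contDiff_bump (fun s hs => bump_of_nonpos hs) n (by linarith),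
      mul_zero, mul_zero]
  · have hev : field v =ᶠ[𝓝 s] fun r => ∑ e ∈ Finset.range N, fterm v e r := by
      have hopen : {r : ℝ | 1 < 2 ^ (N + 1) * r} ∈ 𝓝 s :=
        (isOpen_lt continuous_const (continuous_const.mul continuous_id)).mem_nhds hs
      filter_upwards [hopen] with r hr
      unfold field
      apply tsum_eq_sum
      intro e he
      rw [Finset.mem_range, not_lt] at he
      have hr' : 1 < 2 ^ (N + 1) * r := hr
      have hr0 : 0 < r := by
        by_contra hcon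
        push Not at hcon
        have : (2 : ℝ) ^ (N + 1) * r ≤ 0 := mul_nonpos_of_nonneg_of_nonpos (by positivity) hcon
        linarith
      apply fterm_zero_of_ge
      have : (2 : ℝ) ^ (N + 1) * 2 ≤ 2 ^ (e + 2) := by
        rw [← pow_succ]
        exact pow_le_pow_right₀ (by norm_num) (by omega)
      nlinarith
    rw [hev.iteratedDeriv_eq]
    rw [iteratedDeriv_fun_sum]
    · apply Finset.sum_congr rfl
      intro e _
      rw [iteratedDeriv_fterm]
    · intro e _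
      exact ((contDiff_fterm v e).of_le (nat_le_smoothTop n)).contDiffAt

end Vale.Agent.P113
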