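import Mathlib
import Vale.Agent.P113.Comp

namespace Vale.Agent.P113

open Set

namespace CR

variable {α : Type} [Primcodable α]

lemma lim {F : α × ℕ → ℝ} (hF : CR F) {G : α → ℝ}
    (h : ∀ a (k : ℕ), |G a - F (a, k)| ≤ 1 / ((k : ℝ) + 1)) : CR G := by
  obtain ⟨f, hf, hfb⟩ := hF
  have hk : Computable fun p : α × ℕ => (((p.1, 2 * p.2 + 1), 2 * p.2 + 1) : (α × ℕ) × ℕ) := by
    have e1 : Computable fun p : α × ℕ => 2 * p.2 + 1 :=
      (P.add (P.mul (P.c 2) Primrec.id) (P.c 1)).to_comp.comp Computable.snd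
    exact (Computable.fst.pair e1).pair e1
  refine ⟨fun p => f ((p.1, 2 * p.2 + 1), 2 * p.2 + 1), hf.comp hk, fun a k => ?_⟩
  simp only
  have h1 := hfb (a, 2 * k + 1) (2 * k + 1)
  have h2 := h a (2 * k + 1)
  have h3 : (1 : ℝ) / (((2 * k + 1 : ℕ) : ℝ) + 1) = 1 / ((k : ℝ) + 1) / 2 := by
    push_cast
    field_simp
    ring
  rw [h3] at h1 h2
  have h4 : G a - qval (f ((a, 2 * k + 1), 2 * k + 1))
      = (G a - F (a, 2 * k + 1)) + (F (a, 2 * k + 1) - qval (f ((a, 2 * k + 1), 2 * k + 1))) := by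
    ring
  rw [h4]
  exact (abs_add_le _ _).trans (by linarith)

end CR

/-! ### The machine simulation is primitive recursive -/

lemma primrec_mem : PrimrecRel fun (a : ℕ) (L : List ℕ) => a ∈ L := by
  have h1 : PrimrecRel fun (L : List ℕ) (b : ℕ) => ∃ a ∈ L, a = b :=
    PrimrecRel.exists_mem_list Primrec.eq
  exact h1.swap.of_eq fun a L => by simp

lemma primrec_moveHead : Primrec₂ moveHead := by
  have c1 : Primrec fun p : Cfg × (ℕ × ℕ × ℕ) => p.1.2.1 :=
    Primrec.fst.comp (Primrec.snd.comp Primrec.fst)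
  have c3 : Primrec fun p : Cfg × (ℕ × ℕ × ℕ) => p.1.2.2.2 :=
    Primrec.snd.comp (Primrec.snd.comp (Primrec.snd.comp Primrec.fst))
  have a0 : Primrec fun p : Cfg × (ℕ × ℕ × ℕ) => p.2.1 := Primrec.fst.comp Primrec.snd
  have a1 : Primrec fun p : Cfg × (ℕ × ℕ × ℕ) => p.2.2.1 :=
    Primrec.fst.comp (Primrec.snd.comp Primrec.snd)
  have a2 : Primrec fun p : Cfg × (ℕ × ℕ × ℕ) => p.2.2.2 :=
    Primrec.snd.comp (Primrec.snd.comp Primrec.snd)
  have i0 : PrimrecPred fun p : Cfg × (ℕ × ℕ × ℕ) => p.2.2.2 = 0 :=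
    Primrec.eq.comp a2 (Primrec.const 0)
  have i1 : PrimrecPred fun p : Cfg × (ℕ × ℕ × ℕ) => p.2.2.2 = 1 :=
    Primrec.eq.comp a2 (Primrec.const 1)
  refine Primrec.ite i0 ?_ (Primrec.ite i1 ?_ ?_)
  · exact a0.pair ((Primrec.list_tail.comp c1).pair
      ((Primrec.list_headI.comp c1).pair (Primrec.list_cons.comp a1 c3)))
  · exact a0.pair ((Primrec.list_cons.comp a1 c1).pair
      ((Primrec.list_headI.comp c3).pair (Primrec.list_tail.comp c3)))
  · exact a0.pair (c1.pair (a1.pair c3))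

lemma beq_pair_eq : (instBEqProd : BEq (ℕ × ℕ)) = instBEqOfDecidableEq :=
  lawful_beq_subsingleton _ _

lemma primrec_lookup : Primrec₂ fun (k : ℕ × ℕ) (L : List ((ℕ × ℕ) × (ℕ × ℕ × ℕ))) =>
    L.lookup k := by
  rw [beq_pair_eq]
  exact Primrec.listLookup

lemma primrec_stepCfg : Primrec₂ stepCfg := by
  have hM2 : Primrec fun p : Machine × Cfg => p.1.2 := Primrec.snd.comp Primrec.fst
  have hH : Primrec fun p : Machine × Cfg => p.1.1.2 :=
    Primrec.snd.comp (Primrec.fst.comp Primrec.fst)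
  have hq : Primrec fun p : Machine × Cfg => p.2.1 := Primrec.fst.comp Primrec.snd
  have hs : Primrec fun p : Machine × Cfg => p.2.2.2.1 :=
    Primrec.fst.comp (Primrec.snd.comp (Primrec.snd.comp Primrec.snd))
  have hmem : PrimrecPred fun p : Machine × Cfg => p.2.1 ∈ p.1.1.2 := primrec_mem.comp hq hH
  refine Primrec.ite hmem Primrec.snd ?_
  refine Primrec.option_getD.comp ?_ Primrec.snd
  refine Primrec.option_map (primrec_lookup.comp (hq.pair hs) hM2) ?_
  exact primrec_moveHead.comp (Primrec.snd.comp Primrec.fst) Primrec.snd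

lemma primrec_initCfg : Primrec₂ initCfg := by
  have h1 : Primrec fun p : Machine × List ℕ => p.1.1.1 :=
    Primrec.fst.comp (Primrec.fst.comp Primrec.fst)
  exact h1.pair ((Primrec.const []).pair ((Primrec.list_headI.comp Primrec.snd).pair
    (Primrec.list_tail.comp Primrec.snd)))

/-- Whether the machine is in a halting state at time `n` on the word with code `e`. -/
def hbit (p : (Machine × ℕ) × ℕ) : Bool :=
  decide (((stepCfg p.1.1)^[p.2] (initCfg p.1.1 (Denumerable.ofNat (List ℕ) p.1.2))).1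
    ∈ p.1.1.1.2)

lemma primrec_hbit : Primrec hbit := by
  have hM : Primrec fun p : (Machine × ℕ) × ℕ => p.1.1 := Primrec.fst.comp Primrec.fst
  have hw : Primrec fun p : (Machine × ℕ) × ℕ => Denumerable.ofNat (List ℕ) p.1.2 :=
    (Primrec.ofNat (List ℕ)).comp (Primrec.snd.comp Primrec.fst)
  have hit : Primrec fun p : (Machine × ℕ) × ℕ =>
      (stepCfg p.1.1)^[p.2] (initCfg p.1.1 (Denumerable.ofNat (List ℕ) p.1.2)) := by
    refine Primrec.nat_iterate (f := fun p : (Machine × ℕ) × ℕ => p.2)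
      (g := fun p => initCfg p.1.1 (Denumerable.ofNat (List ℕ) p.1.2))
      (h := fun p c => stepCfg p.1.1 c) Primrec.snd (primrec_initCfg.comp hM hw) ?_
    exact primrec_stepCfg.comp (Primrec.fst.comp (Primrec.fst.comp Primrec.fst)) Primrec.snd
  have hH : Primrec fun p : (Machine × ℕ) × ℕ => p.1.1.1.2 :=
    Primrec.snd.comp (Primrec.fst.comp hM)
  exact (primrec_mem.comp (Primrec.fst.comp hit) hH).decide

/-- The summands of the computable real attached to `(M, e)`. -/
noncomputable def vterm (M : Machine) (e n : ℕ) : ℝ :=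
  (if hbit ((M, e), n) then 1 else 0) * (1 / 2) ^ (n + 2)

/-- A computable real, positive iff the machine halts on the word with code `e`. -/
noncomputable def vM (M : Machine) (e : ℕ) : ℝ := ∑' n, vterm M e n

lemma vterm_nonneg (M : Machine) (e n : ℕ) : 0 ≤ vterm M e n := by
  unfold vterm
  split_ifs <;> positivity

lemma vterm_le (M : Machine) (e n : ℕ) : vterm M e n ≤ (1 / 2) ^ (n + 2) := by
  unfold vterm
  split_ifs
  · simp
  · simp

lemma summable_half (k : ℕ) : Summable fun n : ℕ => (1 / 2 : ℝ) ^ (n + k) :=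
  (summable_geometric_of_lt_one (by norm_num) (by norm_num)).comp_injective
    (add_left_injective k)

lemma summable_vterm (M : Machine) (e : ℕ) : Summable (vterm M e) :=
  Summable.of_nonneg_of_le (vterm_nonneg M e) (vterm_le M e) (summable_half 2)

lemma tsum_half (k : ℕ) : ∑' n : ℕ, (1 / 2 : ℝ) ^ (n + k) = 2 * (1 / 2) ^ k := by
  simp only [pow_add]
  rw [tsum_mul_right, tsum_geometric_two]

lemma vM_nonneg (M : Machine) (e : ℕ) : 0 ≤ vM M e := tsum_nonneg (vterm_nonneg M e)

lemma vM_le (M : Machine) (e : ℕ) : vM M e ≤ 1 := by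
  have : vM M e ≤ ∑' n : ℕ, (1 / 2 : ℝ) ^ (n + 2) :=
    Summable.tsum_le_tsum (vterm_le M e) (summable_vterm M e) (summable_half 2)
  rw [tsum_half] at this
  norm_num at this
  linarith

lemma abs_vM_le (M : Machine) (e : ℕ) : |vM M e| ≤ 1 := by
  rw [abs_of_nonneg (vM_nonneg M e)]
  exact vM_le M e

lemma vM_pos_iff (M : Machine) (e : ℕ) :
    0 < vM M e ↔ Halts M (Denumerable.ofNat (List ℕ) e) := by
  constructor
  · intro h
    by_contra hcon
    have hz : ∀ n, vterm M e n = 0 := by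
      intro n
      unfold vterm
      rw [if_neg, zero_mul]
      intro hb
      apply hcon
      refine ⟨n, ?_⟩
      simpa [hbit] using hb
    have : vM M e = 0 := by
      unfold vM
      simp [hz]
    linarith
  · rintro ⟨n, hn⟩
    have h1 : vterm M e n = (1 / 2) ^ (n + 2) := by
      unfold vterm
      rw [if_pos, one_mul]
      simpa [hbit] using hn
    have h2 : 0 < vterm M e n := by
      rw [h1]; positivity
    exact (summable_vterm M e).tsum_pos (vterm_nonneg M e) n h2

lemma two_pow_ge (k : ℕ) : (k : ℝ) + 1 ≤ 2 ^ k := by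
  have : k + 1 ≤ 2 ^ k := Nat.lt_two_pow_self
  exact_mod_cast this

lemma cr_half_pow : CR fun n : ℕ => (1 / 2 : ℝ) ^ n := by
  have hq : Primrec fun n : ℕ => ((1, 0, 2 ^ n - 1) : QName) :=
    P.q (P.c 1) (P.c 0) (P.sub (P.pow (P.c 2) Primrec.id) (P.c 1))
  refine (CR.exact hq.to_comp).congr fun n => ?_
  unfold qval
  have : 1 ≤ 2 ^ n := Nat.one_le_two_pow
  rw [Nat.cast_sub this]
  push_cast
  rw [one_div, inv_pow]
  simp

lemma cr_vM : CR fun p : Machine × ℕ => vM p.1 p.2 := by
  have hterm : CR fun p : (Machine × ℕ) × ℕ => vterm p.1.1 p.1.2 p.2 := by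
    have h1 : CR fun p : (Machine × ℕ) × ℕ => bif hbit p then (qval (1, 0, 0)) else qval (0, 0, 0) :=
      CR.cond primrec_hbit.to_comp (CR.exact (Computable.const (1, 0, 0)))
        (CR.exact (Computable.const (0, 0, 0)))
    have h2 : CR fun p : (Machine × ℕ) × ℕ => (1 / 2 : ℝ) ^ (p.2 + 2) :=
      cr_half_pow.comp ((P.add Primrec.id (P.c 2)).to_comp.comp Computable.snd)
    refine (h1.mul h2).congr fun p => ?_
    unfold vterm
    congr 1
    rcases p with ⟨⟨M, e⟩, n⟩
    simp only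
    cases hbit ((M, e), n) <;> simp [qval]
  have hsum : CR fun p : (Machine × ℕ) × ℕ =>
      ∑ i ∈ Finset.range p.2, vterm p.1.1 p.1.2 i := by
    have h3 : CR fun p : ((Machine × ℕ) × ℕ) × ℕ => vterm p.1.1.1 p.1.1.2 p.2 :=
      hterm.comp (h := fun p : ((Machine × ℕ) × ℕ) × ℕ => (p.1.1, p.2))
        ((Computable.fst.comp Computable.fst).pair Computable.snd)
    exact h3.sum Computable.snd
  refine hsum.lim fun a k => ?_
  obtain ⟨M, e⟩ := a
  simp only
  have h1 := (summable_vterm M e).sum_add_tsum_nat_add k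
  have h2 : vM M e - ∑ i ∈ Finset.range k, vterm M e i = ∑' i, vterm M e (i + k) := by
    unfold vM
    linarith
  rw [h2]
  have h3 : 0 ≤ ∑' i, vterm M e (i + k) := tsum_nonneg fun i => vterm_nonneg M e _
  rw [abs_of_nonneg h3]
  have h4 : ∑' i, vterm M e (i + k) ≤ ∑' i : ℕ, (1 / 2 : ℝ) ^ (i + (k + 2)) := by
    apply Summable.tsum_le_tsum
    · intro i
      have := vterm_le M e (i + k)
      rwa [add_assoc] at this
    · exact (summable_nat_add_iff k).2 (summable_vterm M e)
    · exact summable_half (k + 2)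
  rw [tsum_half] at h4
  refine h4.trans ?_
  have h5 : (2 : ℝ) * (1 / 2) ^ (k + 2) = 1 / (2 * 2 ^ k) := by
    rw [pow_add, one_div, inv_pow]
    field_simp
  rw [h5]
  have h6 := two_pow_ge k
  apply one_div_le_one_div_of_le (by positivity)
  have : (0 : ℝ) ≤ k := by positivity
  linarith

end Vale.Agent.P113
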