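import Mathlib
import Vale.Agent.P113.Machine
import Vale.Agent.P113.Field

namespace Vale.Agent.P113

open Set

/-! ### The formal derivatives are primitive recursive -/

lemma P.m {α : Type} [Primcodable α] {f g h k : α → ℕ} (hf : Primrec f) (hg : Primrec g)
    (hh : Primrec h) (hk : Primrec k) : Primrec fun a => ((f a, g a, h a, k a) : Mono) :=
  hf.pair (hg.pair (hh.pair hk))

lemma primrec_dM : Primrec dM := by
  have p : Primrec fun m : Mono => m.1 := Primrec.fst
  have q : Primrec fun m : Mono => m.2.1 := Primrec.fst.comp Primrec.snd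
  have i : Primrec fun m : Mono => m.2.2.1 := Primrec.fst.comp (Primrec.snd.comp Primrec.snd)
  have j : Primrec fun m : Mono => m.2.2.2 := Primrec.snd.comp (Primrec.snd.comp Primrec.snd)
  exact Primrec.list_cons.comp (P.m (P.mul q i) (P.mul p i) (P.add i (P.c 1)) j)
    (Primrec.list_cons.comp (P.m (P.mul p j) (P.mul q j) i (P.add j (P.c 1)))
      (Primrec.list_cons.comp (P.m p q (P.add i (P.c 2)) j)
        (Primrec.list_cons.comp (P.m q p i (P.add j (P.c 2))) (Primrec.const []))))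

lemma primrec_dL : Primrec dL :=
  Primrec.list_flatMap Primrec.id (primrec_dM.comp Primrec.snd)

lemma primrec_bumpPoly : Primrec bumpPoly :=
  Primrec.nat_iterate (f := fun n : ℕ => n) (g := fun _ => [((1, 0, 0, 0) : Mono)])
    (h := fun _ L => dL L) Primrec.id (Primrec.const _) (primrec_dL.comp Primrec.snd)

/-- The name of the value of a monomial at `((c+1)/r, (c+1)/(c+1-r))`. -/
def monoQ (r c : ℕ) (m : Mono) : QName :=
  (m.1 * (c + 1) ^ (m.2.2.1 + m.2.2.2), m.2.1 * (c + 1) ^ (m.2.2.1 + m.2.2.2),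
    r ^ m.2.2.1 * (c + 1 - r) ^ m.2.2.2 - 1)

def evQ (L : List Mono) (rc : ℕ × ℕ) : QName :=
  L.foldr (fun m acc => qadd (monoQ rc.1 rc.2 m) acc) (0, 0, 0)

lemma qval_monoQ (r c : ℕ) (hr : 0 < r) (hrc : r < c + 1) (m : Mono) :
    qval (monoQ r c m) = evM m (((c : ℝ) + 1) / r) (((c : ℝ) + 1) / (c + 1 - r)) := by
  unfold qval monoQ evM
  simp only
  have h1 : 1 ≤ r ^ m.2.2.1 * (c + 1 - r) ^ m.2.2.2 := by
    have : 0 < c + 1 - r := by omega
    exact Nat.one_le_iff_ne_zero.2 (by positivity)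
  rw [Nat.cast_sub h1]
  push_cast
  rw [Nat.cast_sub hrc.le]
  push_cast
  rw [sub_add_cancel, div_pow, div_pow, pow_add]
  have hr' : (r : ℝ) ≠ 0 := by positivity
  have hc' : ((c : ℝ) + 1 - r) ≠ 0 := by
    have : (r : ℝ) < c + 1 := by exact_mod_cast hrc
    linarith
  field_simp

lemma qval_evQ (r c : ℕ) (hr : 0 < r) (hrc : r < c + 1) (L : List Mono) :
    qval (evQ L (r, c)) = evL L (((c : ℝ) + 1) / r) (((c : ℝ) + 1) / (c + 1 - r)) := by
  induction L with
  | nil => simp [evQ, evL, qval]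
  | cons m L ih =>
    have e1 : evQ (m :: L) (r, c) = qadd (monoQ r c m) (evQ L (r, c)) := rfl
    rw [e1, qval_qadd, ih, qval_monoQ r c hr hrc]
    simp [evL]

lemma primrec_evQ : Primrec₂ evQ := by
  refine Primrec.list_foldr (f := fun p : List Mono × (ℕ × ℕ) => p.1)
    (g := fun _ => ((0, 0, 0) : QName))
    (h := fun p z => qadd (monoQ p.2.1 p.2.2 z.1) z.2) Primrec.fst (Primrec.const _) ?_
  have r : Primrec fun p : (List Mono × (ℕ × ℕ)) × (Mono × QName) => p.1.2.1 :=
    Primrec.fst.comp (Primrec.snd.comp Primrec.fst)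
  have c : Primrec fun p : (List Mono × (ℕ × ℕ)) × (Mono × QName) => p.1.2.2 :=
    Primrec.snd.comp (Primrec.snd.comp Primrec.fst)
  have m : Primrec fun p : (List Mono × (ℕ × ℕ)) × (Mono × QName) => p.2.1 :=
    Primrec.fst.comp Primrec.snd
  have acc : Primrec fun p : (List Mono × (ℕ × ℕ)) × (Mono × QName) => p.2.2 :=
    Primrec.snd.comp Primrec.snd
  have m0 := (Primrec.fst (α := ℕ) (β := ℕ × ℕ × ℕ)).comp m
  have m1 := (Primrec.fst (α := ℕ) (β := ℕ × ℕ)).comp ((Primrec.snd (α := ℕ) (β := ℕ × ℕ × ℕ)).comp m)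
  have m2 := (Primrec.fst (α := ℕ) (β := ℕ)).comp ((Primrec.snd (α := ℕ) (β := ℕ × ℕ)).comp
    ((Primrec.snd (α := ℕ) (β := ℕ × ℕ × ℕ)).comp m))
  have m3 := (Primrec.snd (α := ℕ) (β := ℕ)).comp ((Primrec.snd (α := ℕ) (β := ℕ × ℕ)).comp
    ((Primrec.snd (α := ℕ) (β := ℕ × ℕ × ℕ)).comp m))
  refine primrec_qadd.comp ?_ acc
  exact P.q (P.mul m0 (P.pow (P.add c (P.c 1)) (P.add m2 m3)))
    (P.mul m1 (P.pow (P.add c (P.c 1)) (P.add m2 m3)))
    (P.sub (P.mul (P.pow r m2) (P.pow (P.sub (P.add c (P.c 1)) r) m3)) (P.c 1))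

/-- Derivatives of the bump function at rational points are computable. -/
lemma cr_bump : CR fun p : ℕ × QName => iteratedDeriv p.1 bump (qval p.2) := by
  -- the numerator
  let r : ℕ × QName → ℕ := fun p => p.2.1 - p.2.2.1
  have hr : Primrec r :=
    P.sub (primrec_q1.comp Primrec.snd) (primrec_q2.comp Primrec.snd)
  have hc : Primrec fun p : ℕ × QName => p.2.2.2 := primrec_q3.comp Primrec.snd
  have h1 : CR fun p : ℕ × QName => qval (evQ (bumpPoly p.1) (r p, p.2.2.2)) :=
    CR.exact (primrec_evQ.comp (primrec_bumpPoly.comp Primrec.fst) (hr.pair hc)).to_comp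
  have h2 : CR fun p : ℕ × QName =>
      Real.exp (-((((p.2.2.2 + 1) ^ 2 : ℕ) : ℝ) /
        (((r p * (p.2.2.2 + 1 - r p) - 1 : ℕ) : ℝ) + 1))) :=
    CR.exp_neg.comp (h := fun p : ℕ × QName =>
      ((p.2.2.2 + 1) ^ 2, r p * (p.2.2.2 + 1 - r p) - 1))
      ((P.pow (P.add hc (P.c 1)) (P.c 2)).pair
        (P.sub (P.mul hr (P.sub (P.add hc (P.c 1)) hr)) (P.c 1))).to_comp
  have hcond : Primrec fun p : ℕ × QName => (decide (r p = 0) || decide (p.2.2.2 + 1 ≤ r p)) :=
    Primrec.or.comp ((Primrec.eq.comp hr (Primrec.const 0)).decide)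
      ((Primrec.nat_le.comp (P.add hc (P.c 1)) hr).decide)
  have h3 : CR fun p : ℕ × QName => bif (decide (r p = 0) || decide (p.2.2.2 + 1 ≤ r p))
      then qval (0, 0, 0) else
      qval (evQ (bumpPoly p.1) (r p, p.2.2.2)) *
        Real.exp (-((((p.2.2.2 + 1) ^ 2 : ℕ) : ℝ) /
        (((r p * (p.2.2.2 + 1 - r p) - 1 : ℕ) : ℝ) + 1))) :=
    CR.cond hcond.to_comp (CR.exact (Computable.const (0, 0, 0))) (h1.mul h2)
  refine h3.congr fun p => ?_
  obtain ⟨n, a, b, c⟩ := p
  simp only [r]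
  rcases Nat.le_total a b with hab | hab
  · -- nonpositive point
    have hz : a - b = 0 := Nat.sub_eq_zero_of_le hab
    rw [iteratedDeriv_of_nonpos contDiff_bump (fun _ h => bump_of_nonpos h)]
    · simp [hz, qval]
    · unfold qval
      simp only
      apply div_nonpos_of_nonpos_of_nonneg
      · have : (a : ℝ) ≤ b := by exact_mod_cast hab
        linarith
      · positivity
  · obtain ⟨r0, rfl⟩ := Nat.exists_eq_add_of_le hab
    simp only [Nat.add_sub_cancel_left]
    have hqv : qval (b + r0, b, c) = (r0 : ℝ) / (c + 1) := by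
      unfold qval
      simp
    rw [hqv]
    rcases Nat.eq_zero_or_pos r0 with h0 | h0
    · subst h0
      rw [iteratedDeriv_of_nonpos contDiff_bump (fun _ h => bump_of_nonpos h)]
      · simp [qval]
      · simp
    rcases Nat.lt_or_ge r0 (c + 1) with h1' | h1'
    · have hr0 : (0 : ℝ) < r0 := by exact_mod_cast h0
      have hrc : (r0 : ℝ) < c + 1 := by exact_mod_cast h1'
      have hd : decide (r0 = 0) = false := by simp; omega
      have hd' : decide (c + 1 ≤ r0) = false := by simp; omega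
      rw [hd, hd']
      simp only [Bool.or_self, cond_false]
      rw [qval_evQ r0 c h0 h1']
      rw [iteratedDeriv_bump_Ioo n (by positivity) (by rw [div_lt_one (by positivity)]; exact hrc)]
      have e1 : ((r0 : ℝ) / (c + 1))⁻¹ = ((c : ℝ) + 1) / r0 := by rw [inv_div]
      have hne : ((c : ℝ) + 1 - r0) ≠ 0 := by linarith
      have e2 : (1 - (r0 : ℝ) / (c + 1))⁻¹ = ((c : ℝ) + 1) / (c + 1 - r0) := by
        rw [inv_eq_iff_eq_inv, inv_div]
        field_simp
      rw [e1, e2]
      congr 2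
      have h4 : 1 ≤ r0 * (c + 1 - r0) := by
        have : 0 < c + 1 - r0 := by omega
        exact Nat.one_le_iff_ne_zero.2 (by positivity)
      rw [Nat.cast_sub h4]
      push_cast
      rw [Nat.cast_sub h1'.le]
      push_cast
      rw [sub_add_cancel]
      field_simp
      ring
    · have hd' : decide (c + 1 ≤ r0) = true := by simpa using h1'
      rw [hd']
      simp only [Bool.or_true, cond_true]
      rw [iteratedDeriv_of_one_le contDiff_bump (fun _ h => bump_of_one_le h)]
      · simp [qval]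
      · rw [le_div_iff₀ (by positivity), one_mul]
        exact_mod_cast h1'

/-- Name of the fractional part. -/
def fractQ (q : QName) : QName := ((q.1 + q.2.1 * q.2.2) % (q.2.2 + 1), 0, q.2.2)

lemma primrec_fractQ : Primrec fractQ :=
  P.q (P.mod (P.add primrec_q1 (P.mul primrec_q2 primrec_q3)) (P.add primrec_q3 (P.c 1)))
    (P.c 0) primrec_q3

lemma qval_fractQ (q : QName) : qval (fractQ q) = Int.fract (qval q) := by
  obtain ⟨a, b, c⟩ := q
  unfold fractQ qval
  simp only [Nat.cast_zero, sub_zero]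
  symm
  rw [Int.fract_eq_iff]
  have hc : (0 : ℝ) < (c : ℝ) + 1 := by positivity
  refine ⟨by positivity, ?_, ?_⟩
  · rw [div_lt_one hc]
    have : (a + b * c) % (c + 1) < c + 1 := Nat.mod_lt _ (by omega)
    exact_mod_cast this
  · have h1 : (c + 1) * ((a + b * c) / (c + 1)) + (a + b * c) % (c + 1) = a + b * c :=
      Nat.div_add_mod _ _
    generalize (a + b * c) / (c + 1) = D at h1
    generalize (a + b * c) % (c + 1) = R at h1
    refine ⟨(D : ℤ) - b, ?_⟩
    have h2 : ((c : ℝ) + 1) * (D : ℝ) + (R : ℝ) = a + b * c := by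
      exact_mod_cast h1
    push_cast
    field_simp
    linarith

/-- Derivatives of the field at rational points are computable. -/
lemma cr_field : CR fun p : (Machine × ℕ) × QName =>
    iteratedDeriv p.1.2 (field (vM p.1.1)) (qval p.2) := by
  have hterm : CR fun z : ((Machine × ℕ) × QName) × ℕ =>
      vM z.1.1.1 z.2 * (1 / 2) ^ ((z.2 + 2) ^ 2) * (qval ((2 ^ (z.2 + 2)) ^ z.1.1.2, 0, 0) *
        iteratedDeriv z.1.1.2 bump (qval (2 ^ (z.2 + 2) * z.1.2.1,
          2 ^ (z.2 + 2) * z.1.2.2.1 + (z.1.2.2.2 + 1), z.1.2.2.2))) := by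
    have he : Primrec fun z : ((Machine × ℕ) × QName) × ℕ => z.2 := Primrec.snd
    have hn : Primrec fun z : ((Machine × ℕ) × QName) × ℕ => z.1.1.2 :=
      Primrec.snd.comp (Primrec.fst.comp Primrec.fst)
    have hM : Primrec fun z : ((Machine × ℕ) × QName) × ℕ => z.1.1.1 :=
      Primrec.fst.comp (Primrec.fst.comp Primrec.fst)
    have hq : Primrec fun z : ((Machine × ℕ) × QName) × ℕ => z.1.2 :=
      Primrec.snd.comp Primrec.fst
    have hpow : Primrec fun z : ((Machine × ℕ) × QName) × ℕ => 2 ^ (z.2 + 2) :=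
      P.pow (P.c 2) (P.add he (P.c 2))
    have t1 : CR fun z : ((Machine × ℕ) × QName) × ℕ => vM z.1.1.1 z.2 :=
      cr_vM.comp (h := fun z : ((Machine × ℕ) × QName) × ℕ => (z.1.1.1, z.2))
        (hM.pair he).to_comp
    have t2 : CR fun z : ((Machine × ℕ) × QName) × ℕ => (1 / 2 : ℝ) ^ ((z.2 + 2) ^ 2) :=
      cr_half_pow.comp (P.pow (P.add he (P.c 2)) (P.c 2)).to_comp
    have t3 : CR fun z : ((Machine × ℕ) × QName) × ℕ =>
        qval ((2 ^ (z.2 + 2)) ^ z.1.1.2, 0, 0) :=
      CR.exact (P.q (P.pow hpow hn) (P.c 0) (P.c 0)).to_comp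
    have t4 : CR fun z : ((Machine × ℕ) × QName) × ℕ =>
        iteratedDeriv z.1.1.2 bump (qval (2 ^ (z.2 + 2) * z.1.2.1,
          2 ^ (z.2 + 2) * z.1.2.2.1 + (z.1.2.2.2 + 1), z.1.2.2.2)) :=
      cr_bump.comp (h := fun z : ((Machine × ℕ) × QName) × ℕ =>
        (z.1.1.2, (2 ^ (z.2 + 2) * z.1.2.1,
          2 ^ (z.2 + 2) * z.1.2.2.1 + (z.1.2.2.2 + 1), z.1.2.2.2)))
        (hn.pair (P.q (P.mul hpow (primrec_q1.comp hq))
          (P.add (P.mul hpow (primrec_q2.comp hq)) (P.add (primrec_q3.comp hq) (P.c 1)))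
          (primrec_q3.comp hq))).to_comp
    exact (t1.mul t2).mul (t3.mul t4)
  have hsum := hterm.sum (N := fun p : (Machine × ℕ) × QName => p.2.2.2 + 1)
    (P.add (primrec_q3.comp Primrec.snd) (P.c 1)).to_comp
  refine hsum.congr fun p => ?_
  obtain ⟨⟨M, n⟩, a, b, c⟩ := p
  simp only
  have hs : qval (a, b, c) ≤ 0 ∨ 1 < 2 ^ ((c + 1) + 1) * qval (a, b, c) := by
    rcases Nat.le_total a b with hab | hab
    · left
      unfold qval
      simp only
      apply div_nonpos_of_nonpos_of_nonneg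
      · have : (a : ℝ) ≤ b := by exact_mod_cast hab
        linarith
      · positivity
    · rcases Nat.eq_or_lt_of_le hab with h | h
      · left
        subst h
        simp [qval]
      · right
        unfold qval
        simp only
        have h1 : (b : ℝ) + 1 ≤ a := by exact_mod_cast h
        have h2 := two_pow_ge (c + 1)
        push_cast at h2
        have h3 : (0 : ℝ) < (c : ℝ) + 1 := by positivity
        rw [mul_div_assoc', lt_div_iff₀ h3, one_mul, pow_succ]
        nlinarith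
  rw [iteratedDeriv_field (vM M) (abs_vM_le M) n (c + 1) hs]
  apply Finset.sum_congr rfl
  intro e _
  have e1 : qval ((2 ^ (e + 2)) ^ n, 0, 0) = (2 ^ (e + 2) : ℝ) ^ n := by
    simp [qval]
  have e2 : qval (2 ^ (e + 2) * a, 2 ^ (e + 2) * b + (c + 1), c)
      = 2 ^ (e + 2) * qval (a, b, c) - 1 := by
    unfold qval
    simp only
    push_cast
    have h3 : (c : ℝ) + 1 ≠ 0 := by positivity
    field_simp
    ring
  rw [e1, e2]

end Vale.Agent.P113
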