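import Mathlib
import Vale.Agent.P113.Field

namespace Vale.Agent.P113

open Set Filter Topology MeasureTheory

/-- The periodic profile of the field. -/
noncomputable def H (v : ℕ → ℝ) : ℝ → ℝ := per (field v)

/-- The time profile of the second phase (used for `t ≥ 0`). -/
noncomputable def psi1 (t : ℝ) : ℝ := per bump t - bump t

noncomputable def vel (κ : ℝ) (v : ℕ → ℝ) (t : ℝ) (x : V3) : V3 :=
  ![0, κ * bump t, psi1 t * H v (x 1)]

noncomputable def force (ν κ : ℝ) (v : ℕ → ℝ) (t : ℝ) (x : V3) : V3 :=
  ![0, κ * iteratedDeriv 1 bump t,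
    iteratedDeriv 1 psi1 t * H v (x 1) - ν * (psi1 t * iteratedDeriv 2 (H v) (x 1))]

lemma contDiff_H (v : ℕ → ℝ) (hv : ∀ e, |v e| ≤ 1) : ContDiff ℝ smoothTop (H v) :=
  contDiff_per (contDiff_field v hv) (fun _ h => field_of_nonpos v h)
    (fun _ h => field_of_one_le v h)

lemma contDiff_per_bump : ContDiff ℝ smoothTop (per bump) :=
  contDiff_per contDiff_bump (fun _ h => bump_of_nonpos h) (fun _ h => bump_of_one_le h)

lemma contDiff_psi1 : ContDiff ℝ smoothTop psi1 := contDiff_per_bump.sub contDiff_bump

lemma contDiff_iteratedDeriv {g : ℝ → ℝ} (hg : ContDiff ℝ smoothTop g) (n : ℕ) :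
    ContDiff ℝ smoothTop (iteratedDeriv n g) := by
  rw [iteratedDeriv_eq_iterate]
  exact ContDiff.iterate_deriv n hg

lemma psi1_of_lt {t : ℝ} (h0 : 0 ≤ t) (h1 : t < 1) : psi1 t = 0 := by
  unfold psi1 per
  rw [Int.fract_eq_self.2 ⟨h0, h1⟩, sub_self]

lemma psi1_of_ge {t : ℝ} (h1 : 1 ≤ t) : psi1 t = per bump t := by
  unfold psi1
  rw [bump_of_one_le h1, sub_zero]

lemma bump_mul_psi1 (t : ℝ) : bump t * psi1 t = 0 := by
  rcases lt_or_ge t 0 with h | h
  · rw [bump_of_nonpos h.le, zero_mul]
  rcases lt_or_ge t 1 with h' | h'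
  · rw [psi1_of_lt h h', mul_zero]
  · rw [bump_of_one_le h', zero_mul]

lemma psi1_nonneg {t : ℝ} (h : 0 ≤ t) : 0 ≤ psi1 t := by
  rcases lt_or_ge t 1 with h' | h'
  · rw [psi1_of_lt h h']
  · rw [psi1_of_ge h']
    exact bump_nonneg _

lemma iteratedDeriv_psi1 (n : ℕ) (t : ℝ) :
    iteratedDeriv n psi1 t = iteratedDeriv n bump (Int.fract t) - iteratedDeriv n bump t := by
  have e := iteratedDeriv_sub (n := n) (x := t) (f := per bump) (g := bump)
    (contDiff_per_bump.of_le (nat_le_smoothTop n)).contDiffAt
    (contDiff_bump.of_le (nat_le_smoothTop n)).contDiffAt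
  have e2 := iteratedDeriv_per contDiff_bump (fun _ h => bump_of_nonpos h)
    (fun _ h => bump_of_one_le h) n t
  rw [e2] at e
  exact e

lemma iteratedDeriv_H (v : ℕ → ℝ) (hv : ∀ e, |v e| ≤ 1) (n : ℕ) (y : ℝ) :
    iteratedDeriv n (H v) y = iteratedDeriv n (field v) (Int.fract y) :=
  iteratedDeriv_per (contDiff_field v hv) (fun _ h => field_of_nonpos v h)
    (fun _ h => field_of_one_le v h) n y

/-! ### Smoothness -/

lemma contDiff_vel (κ : ℝ) (v : ℕ → ℝ) (hv : ∀ e, |v e| ≤ 1) :
    ContDiff ℝ smoothTop (fun z : ℝ × V3 => vel κ v z.1 z.2) := by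
  rw [contDiff_pi]
  have h1 : ContDiff ℝ smoothTop fun z : ℝ × V3 => z.2 1 :=
    (contDiff_apply ℝ ℝ (1 : Fin 3)).comp contDiff_snd
  intro i
  fin_cases i
  · exact contDiff_const
  · exact contDiff_const.mul (contDiff_bump.comp contDiff_fst)
  · exact (contDiff_psi1.comp contDiff_fst).mul ((contDiff_H v hv).comp h1)

lemma contDiff_force (ν κ : ℝ) (v : ℕ → ℝ) (hv : ∀ e, |v e| ≤ 1) :
    ContDiff ℝ smoothTop (fun z : ℝ × V3 => force ν κ v z.1 z.2) := by
  rw [contDiff_pi]
  have h1 : ContDiff ℝ smoothTop fun z : ℝ × V3 => z.2 1 :=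
    (contDiff_apply ℝ ℝ (1 : Fin 3)).comp contDiff_snd
  intro i
  fin_cases i
  · exact contDiff_const
  · exact contDiff_const.mul ((contDiff_iteratedDeriv contDiff_bump 1).comp contDiff_fst)
  · exact (((contDiff_iteratedDeriv contDiff_psi1 1).comp contDiff_fst).mul
      ((contDiff_H v hv).comp h1)).sub (contDiff_const.mul ((contDiff_psi1.comp contDiff_fst).mul
        ((contDiff_iteratedDeriv (contDiff_H v hv) 2).comp h1)))

/-! ### Partial derivatives of shear profiles -/

lemma pd_const (j : Fin 3) (c : ℝ) : pd j (fun _ => c) = fun _ => 0 := by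
  funext x
  unfold pd
  simp

lemma pd_comp_one {g : ℝ → ℝ} (hg : Differentiable ℝ g) (c : ℝ) (j : Fin 3) :
    pd j (fun x : V3 => c * g (x 1)) = fun x => (if j = 1 then c else 0) * deriv g (x 1) := by
  funext x
  have h1 : HasFDerivAt (fun x : V3 => x 1) (ContinuousLinearMap.proj (R := ℝ) 1 : V3 →L[ℝ] ℝ) x :=
    (ContinuousLinearMap.proj (R := ℝ) (φ := fun _ : Fin 3 => ℝ) 1).hasFDerivAt
  have h2 : HasFDerivAt (fun x : V3 => c * g (x 1))
      (c • (deriv g (x 1) • (ContinuousLinearMap.proj (R := ℝ) 1 : V3 →L[ℝ] ℝ))) x :=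
    ((hg (x 1)).hasDerivAt.comp_hasFDerivAt x h1).const_mul c
  unfold pd
  rw [h2.fderiv]
  fin_cases j <;> simp

lemma iteratedDeriv_two (g : ℝ → ℝ) : iteratedDeriv 2 g = deriv (deriv g) := by
  rw [iteratedDeriv_eq_iterate]; rfl

theorem isClassicalSolution (ν κ : ℝ) (v : ℕ → ℝ) (hv : ∀ e, |v e| ≤ 1) (T : ℝ) (hT : 0 < T) :
    IsClassicalSolution ν (force ν κ v) T (vel κ v) (fun _ _ => 0) := by
  have hH := contDiff_H v hv
  have hHd : Differentiable ℝ (H v) := hH.differentiable (by simp)
  have hH' : ContDiff ℝ smoothTop (deriv (H v)) := by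
    have := contDiff_iteratedDeriv hH 1
    rwa [iteratedDeriv_one] at this
  have hHd' : Differentiable ℝ (deriv (H v)) := hH'.differentiable (by simp)
  have hH'' : ContDiff ℝ smoothTop (deriv (deriv (H v))) := by
    have := contDiff_iteratedDeriv hH 2
    rwa [iteratedDeriv_two] at this
  have hu := contDiff_vel κ v hv
  -- first derivatives
  have p0 : ∀ t j, pd j (fun y => vel κ v t y 0) = fun _ => 0 := fun t j => pd_const j 0
  have p1 : ∀ t j, pd j (fun y => vel κ v t y 1) = fun _ => 0 := fun t j =>
    pd_const j (κ * bump t)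
  have p2 : ∀ t j, pd j (fun y => vel κ v t y 2)
      = fun x => (if j = 1 then psi1 t else 0) * deriv (H v) (x 1) := fun t j =>
    pd_comp_one hHd (psi1 t) j
  have p22 : ∀ t j k, pd k (pd j (fun y => vel κ v t y 2))
      = fun x => (if k = 1 then (if j = 1 then psi1 t else 0) else 0)
        * deriv (deriv (H v)) (x 1) := by
    intro t j k
    rw [p2]
    exact pd_comp_one hHd' _ k
  have hslice : ∀ x i, ContDiff ℝ smoothTop fun s => vel κ v s x i := by
    intro x i
    exact (contDiff_pi.1 hu i).comp (contDiff_id.prodMk contDiff_const)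
  have dts : ∀ t ∈ Icc 0 T, ∀ x i, derivWithin (fun s => vel κ v s x i) (Icc 0 T) t
      = deriv (fun s => vel κ v s x i) t := by
    intro t ht x i
    have hd : DifferentiableAt ℝ (fun s => vel κ v s x i) t :=
      (hslice x i).differentiable (by simp) t
    exact hd.derivWithin (uniqueDiffOn_Icc hT t ht)
  have dt0 : ∀ t x, deriv (fun s => vel κ v s x 0) t = 0 := by
    intro t x
    have : (fun s => vel κ v s x 0) = fun _ => (0 : ℝ) := rfl
    rw [this]; simp
  have dt1 : ∀ t x, deriv (fun s => vel κ v s x 1) t = κ * deriv bump t := by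
    intro t x
    have : (fun s => vel κ v s x 1) = fun s => κ * bump s := rfl
    rw [this]
    exact deriv_const_mul _ (contDiff_bump.differentiable (by simp) t)
  have dt2 : ∀ t x, deriv (fun s => vel κ v s x 2) t = deriv psi1 t * H v (x 1) := by
    intro t x
    have : (fun s => vel κ v s x 2) = fun s => psi1 s * H v (x 1) := rfl
    rw [this]
    exact deriv_mul_const (contDiff_psi1.differentiable (by simp) t) _
  have c1 : Continuous fun z : ℝ × V3 => z.2 1 :=
    (continuous_apply (1 : Fin 3)).comp continuous_snd
  refine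
    { periodic_u := ?_, periodic_p := ?_, contDiff_u := ?_, contDiff_p := ?_,
      differentiable_time := ?_, continuous_u := ?_, continuous_ut := ?_, continuous_ux := ?_,
      continuous_uxx := ?_, continuous_p := ?_, continuous_px := ?_, momentum := ?_,
      incompressible := ?_, initial := ?_, mean_zero := ?_ }
  · intro t _ x k
    simp only [vel, H, per_add_int]
  · intro t _ x k
    rfl
  · intro t _
    exact (hu.comp (contDiff_const.prodMk contDiff_id)).of_le
      (by exact_mod_cast (nat_le_smoothTop 2))
  · intro t _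
    exact contDiff_const
  · intro x i t _
    exact ((hslice x i).differentiable (by simp) t).differentiableWithinAt
  · exact hu.continuous.continuousOn
  · intro i
    have : ContinuousOn (fun z : ℝ × V3 => deriv (fun s => vel κ v s z.2 i) z.1)
        (Icc 0 T ×ˢ univ) := by
      apply Continuous.continuousOn
      fin_cases i
      · simp only [Fin.zero_eta, dt0]
        exact continuous_const
      · simp only [Fin.mk_one, dt1]
        have hc : Continuous (deriv bump) := by
          have := (contDiff_iteratedDeriv contDiff_bump 1).continuous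
          rwa [iteratedDeriv_one] at this
        exact continuous_const.mul (hc.comp continuous_fst)
      · simp only [Fin.reduceFinMk, dt2]
        have hc : Continuous (deriv psi1) := by
          have := (contDiff_iteratedDeriv contDiff_psi1 1).continuous
          rwa [iteratedDeriv_one] at this
        exact (hc.comp continuous_fst).mul (hH.continuous.comp c1)
    refine this.congr ?_
    intro z hz
    exact dts z.1 hz.1 z.2 i
  · intro i j
    apply Continuous.continuousOn
    fin_cases i
    · simp only [Fin.zero_eta, p0]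
      exact continuous_const
    · simp only [Fin.mk_one, p1]
      exact continuous_const
    · simp only [Fin.reduceFinMk, p2]
      by_cases hj : j = 1
      · simp only [hj, if_true]
        exact (contDiff_psi1.continuous.comp continuous_fst).mul (hH'.continuous.comp c1)
      · simp only [hj, if_false, zero_mul]
        exact continuous_const
  · intro i j k
    apply Continuous.continuousOn
    fin_cases i
    · simp only [Fin.zero_eta, p0, pd_const]
      exact continuous_const
    · simp only [Fin.mk_one, p1, pd_const]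
      exact continuous_const
    · simp only [Fin.reduceFinMk, p22]
      by_cases hk : k = 1
      · by_cases hj : j = 1
        · simp only [hj, hk, if_true]
          exact (contDiff_psi1.continuous.comp continuous_fst).mul (hH''.continuous.comp c1)
        · simp only [hj, hk, if_false, if_true, zero_mul]
          exact continuous_const
      · simp only [hk, if_false, zero_mul]
        exact continuous_const
  · exact continuous_const.continuousOn
  · intro i
    simp only [pd_const]
    exact continuous_const.continuousOn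
  · intro t ht x i
    rw [dts t ht]
    simp only [pd_const]
    fin_cases i
    · simp [dt0, p0, pd_const, force]
    · simp [dt1, p1, pd_const, force, iteratedDeriv_one]
    · have hb : κ * bump t * (psi1 t * deriv (H v) (x 1)) = 0 := by
        have := bump_mul_psi1 t
        calc κ * bump t * (psi1 t * deriv (H v) (x 1))
            = κ * (bump t * psi1 t) * deriv (H v) (x 1) := by ring
          _ = 0 := by rw [this]; ring
      simp only [Fin.reduceFinMk, Fin.sum_univ_three, p22]
      simp only [dt2, p2, force, iteratedDeriv_one, iteratedDeriv_two]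
      simp only [vel]
      simpa using hb
  · intro t _ x
    simp only [Fin.sum_univ_three, p0, p1, p2]
    simp
  · intro x
    funext i
    fin_cases i
    · rfl
    · simp [vel, bump_of_nonpos (le_refl (0 : ℝ))]
    · simp [vel, psi1_of_lt (le_refl (0 : ℝ)) one_pos]
  · intro t _
    simp

end Vale.Agent.P113
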