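import Mathlib
import Vale.Agent.P113.Flow

namespace Vale.Agent.P113

open Set Filter Topology MeasureTheory

noncomputable def A (t : ℝ) : ℝ := ∫ s in (0 : ℝ)..t, bump s

noncomputable def P (t : ℝ) : ℝ := ∫ s in (0 : ℝ)..t, psi1 s

noncomputable def cB : ℝ := A 1

lemma hasDerivAt_A (t : ℝ) : HasDerivAt A (bump t) t :=
  intervalIntegral.integral_hasDerivAt_right (contDiff_bump.continuous.intervalIntegrable _ _)
    (contDiff_bump.continuous.stronglyMeasurableAtFilter _ _)
    contDiff_bump.continuous.continuousAt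

lemma hasDerivAt_P (t : ℝ) : HasDerivAt P (psi1 t) t :=
  intervalIntegral.integral_hasDerivAt_right (contDiff_psi1.continuous.intervalIntegrable _ _)
    (contDiff_psi1.continuous.stronglyMeasurableAtFilter _ _)
    contDiff_psi1.continuous.continuousAt

lemma cB_pos : 0 < cB := by
  unfold cB A
  apply intervalIntegral.intervalIntegral_pos_of_pos_on
    (contDiff_bump.continuous.intervalIntegrable _ _)
  · intro x hx
    exact bump_pos hx.1 hx.2
  · norm_num

lemma bump_le (s : ℝ) : bump s ≤ 1 / 5 := by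
  rcases le_or_gt s 0 with h | h
  · rw [bump_of_nonpos h]; norm_num
  rcases le_or_gt 1 s with h' | h'
  · rw [bump_of_one_le h']; norm_num
  · rw [bump_eq h h']
    have h1 : 1 ≤ s⁻¹ := (one_le_inv₀ h).2 h'.le
    have h2 : 1 ≤ (1 - s)⁻¹ := (one_le_inv₀ (by linarith)).2 (by linarith)
    have h3 : Real.exp (-s⁻¹ - (1 - s)⁻¹) ≤ Real.exp (-2) := Real.exp_le_exp.2 (by linarith)
    have h4 : Real.exp (-2) ≤ 1 / 5 := by
      have h5 : (5 : ℝ) ≤ Real.exp 2 := by
        have h6 : (2.7 : ℝ) ≤ Real.exp 1 := by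
          have := Real.exp_one_gt_d9
          linarith
        have h7 : Real.exp 2 = Real.exp 1 * Real.exp 1 := by
          rw [← Real.exp_add]; norm_num
        rw [h7]
        nlinarith
      rw [Real.exp_neg, one_div]
      exact inv_anti₀ (by norm_num) h5
    exact h3.trans h4

lemma cB_le : cB ≤ 1 / 5 := by
  unfold cB A
  have : ∫ s in (0 : ℝ)..1, bump s ≤ ∫ _ in (0 : ℝ)..1, (1 / 5 : ℝ) := by
    apply intervalIntegral.integral_mono_on (by norm_num)
      (contDiff_bump.continuous.intervalIntegrable _ _)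
      (continuous_const.intervalIntegrable _ _)
    intro x _
    exact bump_le x
  simpa using this

lemma exists_K : ∃ K : ℕ, 1 / 4 < K * cB ∧ K * cB < 1 / 2 := by
  have hc := cB_pos
  have hc' := cB_le
  refine ⟨⌊1 / (4 * cB)⌋₊ + 1, ?_, ?_⟩
  · have h1 : 1 / (4 * cB) < ⌊1 / (4 * cB)⌋₊ + 1 := Nat.lt_floor_add_one _
    push_cast
    have h2 : 1 / (4 * cB) * cB = 1 / 4 := by field_simp
    nlinarith
  · have h1 : (⌊1 / (4 * cB)⌋₊ : ℝ) ≤ 1 / (4 * cB) := Nat.floor_le (by positivity)
    push_cast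
    have h2 : 1 / (4 * cB) * cB = 1 / 4 := by field_simp
    nlinarith

lemma A_of_ge {t : ℝ} (ht : 1 ≤ t) : A t = cB := by
  unfold cB A
  rw [← intervalIntegral.integral_add_adjacent_intervals
    (contDiff_bump.continuous.intervalIntegrable 0 1)
    (contDiff_bump.continuous.intervalIntegrable 1 t)]
  have : ∫ s in (1 : ℝ)..t, bump s = ∫ _ in (1 : ℝ)..t, (0 : ℝ) := by
    apply intervalIntegral.integral_congr
    intro s hs
    rw [uIcc_of_le ht] at hs
    exact bump_of_one_le hs.1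
  rw [this]
  simp

lemma A_zero : A 0 = 0 := by simp [A]

lemma P_zero : P 0 = 0 := by simp [P]

lemma periodic_per (G : ℝ → ℝ) : Function.Periodic (per G) 1 := by
  intro x
  have := per_add_int (G := G) x 1
  simpa using this

lemma P_nat (n : ℕ) : P (n + 1) = n * cB := by
  induction n with
  | zero =>
    simp only [Nat.cast_zero, zero_add, zero_mul]
    unfold P
    have : ∫ s in (0 : ℝ)..1, psi1 s = ∫ _ in (0 : ℝ)..1, (0 : ℝ) := by
      rw [intervalIntegral.integral_of_le (by norm_num),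
        intervalIntegral.integral_of_le (by norm_num), integral_Ioc_eq_integral_Ioo,
        integral_Ioc_eq_integral_Ioo]
      apply setIntegral_congr_fun measurableSet_Ioo
      intro s hs
      exact psi1_of_lt hs.1.le hs.2
    rw [this]; simp
  | succ n ih =>
    have e1 : P ((n + 1 : ℕ) + 1) = P (n + 1) + ∫ s in ((n : ℝ) + 1)..((n + 1 : ℕ) + 1), psi1 s := by
      unfold P
      rw [intervalIntegral.integral_add_adjacent_intervals
        (contDiff_psi1.continuous.intervalIntegrable _ _)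
        (contDiff_psi1.continuous.intervalIntegrable _ _)]
    rw [e1, ih]
    have e2 : ∫ s in ((n : ℝ) + 1)..((n + 1 : ℕ) + 1), psi1 s
        = ∫ s in ((n : ℝ) + 1)..((n : ℝ) + 1 + 1), per bump s := by
      push_cast
      apply intervalIntegral.integral_congr
      intro s hs
      rw [uIcc_of_le (by linarith)] at hs
      have hn : (0 : ℝ) ≤ n := Nat.cast_nonneg n
      exact psi1_of_ge (by linarith [hs.1])
    rw [e2, (periodic_per bump).intervalIntegral_add_eq ((n : ℝ) + 1) 0, zero_add]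
    have e3 : ∫ s in (0 : ℝ)..1, per bump s = cB := by
      unfold cB A
      rw [intervalIntegral.integral_of_le (by norm_num),
        intervalIntegral.integral_of_le (by norm_num), integral_Ioc_eq_integral_Ioo,
        integral_Ioc_eq_integral_Ioo]
      apply setIntegral_congr_fun measurableSet_Ioo
      intro s hs
      simp only [per]
      rw [Int.fract_eq_self.2 ⟨hs.1.le, hs.2⟩]
    rw [e3]
    push_cast
    ring

lemma eq_of_deriv {g G F : ℝ → ℝ}
    (hg : ∀ t, 0 ≤ t → HasDerivWithinAt g (F t) (Ici 0) t)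
    (hG : ∀ t, 0 ≤ t → HasDerivWithinAt G (F t) (Ici 0) t) (h0 : g 0 = G 0) :
    ∀ t, 0 ≤ t → g t = G t := by
  intro t ht
  have hd : ∀ s, 0 ≤ s → HasDerivWithinAt (fun r => g r - G r) 0 (Ici 0) s := by
    intro s hs
    have := (hg s hs).fun_sub (hG s hs)
    simpa using this
  have key := constant_of_has_deriv_right_zero (f := fun r => g r - G r) (a := 0) (b := t)
    (fun s hs => (hd s hs.1).continuousWithinAt.mono (fun r hr => hr.1))
    (fun s hs => (hd s hs.1).mono (fun r hr => le_trans hs.1 hr))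
  have h1 : g t - G t = g 0 - G 0 := key t ⟨ht, le_rfl⟩
  linarith

/-- The explicit trajectory from the origin. -/
noncomputable def traj (κ : ℝ) (v : ℕ → ℝ) (t : ℝ) : V3 :=
  ![0, κ * A t, H v (κ * cB) * P t]

lemma traj_aux (κ : ℝ) (v : ℕ → ℝ) {t : ℝ} (ht : 0 ≤ t) :
    psi1 t * H v (κ * A t) = H v (κ * cB) * psi1 t := by
  rcases lt_or_ge t 1 with h | h
  · rw [psi1_of_lt ht h]; ring
  · rw [A_of_ge h]; ring

theorem isTrajectory_traj (κ : ℝ) (v : ℕ → ℝ) : IsTrajectory (vel κ v) 0 (traj κ v) := by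
  refine ⟨?_, ?_⟩
  · funext i
    fin_cases i <;> simp [traj, A_zero, P_zero]
  · intro t ht
    rw [hasDerivWithinAt_pi]
    intro i
    fin_cases i
    · exact hasDerivWithinAt_const _ _ _
    · exact ((hasDerivAt_A t).const_mul κ).hasDerivWithinAt
    · have h1 : HasDerivWithinAt (fun t => H v (κ * cB) * P t) (H v (κ * cB) * psi1 t) (Ici 0) t :=
        ((hasDerivAt_P t).const_mul _).hasDerivWithinAt
      rw [← traj_aux κ v ht] at h1
      exact h1

theorem isTrajectory_unique (κ : ℝ) (v : ℕ → ℝ) (X : ℝ → V3)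
    (hX : IsTrajectory (vel κ v) 0 X) : ∀ t, 0 ≤ t → X t = traj κ v t := by
  obtain ⟨hX0, hXd⟩ := hX
  have hd : ∀ t, 0 ≤ t → ∀ i, HasDerivWithinAt (fun s => X s i) (vel κ v t (X t) i) (Ici 0) t :=
    fun t ht i => (hasDerivWithinAt_pi.1 (hXd t ht)) i
  have e0 : ∀ t, 0 ≤ t → X t 0 = 0 := by
    apply eq_of_deriv (g := fun s => X s 0) (G := fun _ => 0) (F := fun _ => 0)
    · intro t ht; exact hd t ht 0
    · intro t ht; exact hasDerivWithinAt_const _ _ _
    · simp [hX0]
  have e1 : ∀ t, 0 ≤ t → X t 1 = κ * A t := by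
    apply eq_of_deriv (g := fun s => X s 1) (G := fun t => κ * A t) (F := fun t => κ * bump t)
    · intro t ht; exact hd t ht 1
    · intro t ht; exact ((hasDerivAt_A t).const_mul κ).hasDerivWithinAt
    · simp [hX0, A_zero]
  have e2 : ∀ t, 0 ≤ t → X t 2 = H v (κ * cB) * P t := by
    apply eq_of_deriv (g := fun s => X s 2) (G := fun t => H v (κ * cB) * P t)
      (F := fun t => H v (κ * cB) * psi1 t)
    · intro t ht
      have h1 := hd t ht 2
      have h2 : vel κ v t (X t) 2 = H v (κ * cB) * psi1 t := by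
        have : vel κ v t (X t) 2 = psi1 t * H v (X t 1) := rfl
        rw [this, e1 t ht, traj_aux κ v ht]
      rw [h2] at h1
      exact h1
    · intro t ht; exact ((hasDerivAt_P t).const_mul _).hasDerivWithinAt
    · simp [hX0, P_zero]
  intro t ht
  funext i
  fin_cases i
  · exact e0 t ht
  · exact e1 t ht
  · exact e2 t ht

/-- The detecting open set: third coordinate in the open arc `(1/4, 3/4)`. -/
def O : Set T3 := {x | ∃ s : ℝ, s ∈ Ioo (1 / 4 : ℝ) (3 / 4) ∧ x 2 = (s : UnitAddCircle)}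

lemma isOpen_O : IsOpen O := by
  have h1 : IsOpen ((fun s : ℝ => (s : UnitAddCircle)) '' Ioo (1 / 4 : ℝ) (3 / 4)) :=
    QuotientAddGroup.isOpenMap_coe _ isOpen_Ioo
  have h2 : O = (fun x : T3 => x 2) ⁻¹'
      ((fun s : ℝ => (s : UnitAddCircle)) '' Ioo (1 / 4 : ℝ) (3 / 4)) := by
    ext x
    constructor
    · rintro ⟨s, hs, hx⟩
      exact ⟨s, hs, hx.symm⟩
    · rintro ⟨s, hs, hx⟩
      exact ⟨s, hs, hx.symm⟩
  rw [h2]
  exact h1.preimage (continuous_apply 2)

lemma zero_not_mem_O {x : V3} (hx : x 2 = 0) : proj x ∉ O := by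
  rintro ⟨s, hs, h⟩
  have h' : ((0 : ℝ) : UnitAddCircle) = (s : UnitAddCircle) := by
    rw [← hx]; exact h
  rw [AddCircle.coe_eq_coe_iff_of_mem_Ico (a := 0) (by norm_num : (0 : ℝ) ∈ Ico (0 : ℝ) (0 + 1))
    (by constructor <;> linarith [hs.1, hs.2] : s ∈ Ico (0 : ℝ) (0 + 1))] at h'
  linarith [hs.1]

theorem traj_hits (K : ℕ) (hK1 : 1 / 4 < K * cB) (hK2 : K * cB < 1 / 2) (v : ℕ → ℝ)
    (hv0 : ∀ e, 0 ≤ v e) (e : ℕ) :
    (∃ t, 0 ≤ t ∧ proj (traj (K * (1 / 2) ^ e) v t) ∈ O) ↔ 0 < v e := by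
  have hpow : (0 : ℝ) < (1 / 2) ^ e := by positivity
  have hpow1 : ((1 : ℝ) / 2) ^ e ≤ 1 := pow_le_one₀ (by norm_num) (by norm_num)
  have hy : (K : ℝ) * (1 / 2) ^ e * cB = (K * cB) * (1 / 2) ^ e := by ring
  have hmul : (2 : ℝ) ^ (e + 2) * ((K : ℝ) * (1 / 2) ^ e * cB) = 4 * (K * cB) := by
    have : (2 : ℝ) ^ (e + 2) * (1 / 2) ^ e = 4 := by
      rw [pow_add, mul_right_comm, ← mul_pow]
      norm_num
    calc (2 : ℝ) ^ (e + 2) * ((K : ℝ) * (1 / 2) ^ e * cB)
        = ((2 : ℝ) ^ (e + 2) * (1 / 2) ^ e) * (K * cB) := by ring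
      _ = 4 * (K * cB) := by rw [this]
  have hH : H v ((K : ℝ) * (1 / 2) ^ e * cB)
      = v e * ((1 / 2) ^ ((e + 2) ^ 2) * bump (4 * (K * cB) - 1)) := by
    unfold H per
    have h0 : 0 ≤ (K : ℝ) * (1 / 2) ^ e * cB := by
      have := cB_pos
      positivity
    have h1 : (K : ℝ) * (1 / 2) ^ e * cB < 1 := by
      rw [hy]
      nlinarith
    rw [Int.fract_eq_self.2 ⟨h0, h1⟩, field_at v e (by rw [hmul]; linarith)
      (by rw [hmul]; linarith), hmul]
    ring
  set δ : ℝ := (1 / 2) ^ ((e + 2) ^ 2) * bump (4 * (K * cB) - 1) with hδ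
  have hδpos : 0 < δ := mul_pos (by positivity) (bump_pos (by linarith) (by linarith))
  constructor
  · rintro ⟨t, ht, hO⟩
    by_contra hcon
    have hve : v e = 0 := le_antisymm (not_lt.1 hcon) (hv0 e)
    apply zero_not_mem_O _ hO
    have : traj (K * (1 / 2) ^ e) v t 2 = H v (K * (1 / 2) ^ e * cB) * P t := rfl
    rw [this, hH, hve]
    ring
  · intro hve
    set h := H v ((K : ℝ) * (1 / 2) ^ e * cB) with hh
    have hpos : 0 < h := by
      rw [hH]; positivity
    have hc := cB_pos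
    obtain ⟨N, hN⟩ := exists_nat_gt ((1 / 2) / (h * cB))
    have hN' : 1 / 2 ≤ h * P (N + 1) := by
      rw [P_nat]
      rw [div_lt_iff₀ (by positivity)] at hN
      linarith
    have hPc : Continuous P := by
      rw [continuous_iff_continuousAt]
      exact fun t => (hasDerivAt_P t).continuousAt
    have hivt : (1 / 2 : ℝ) ∈ (fun t => h * P t) '' Icc (0 : ℝ) (N + 1) := by
      apply intermediate_value_Icc (by positivity) (by fun_prop)
      constructor
      · simp only [P_zero]; norm_num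
      · exact hN'
    obtain ⟨t, ht, hval⟩ := hivt
    refine ⟨t, ht.1, 1 / 2, by norm_num, ?_⟩
    have : traj (K * (1 / 2) ^ e) v t 2 = h * P t := rfl
    unfold proj
    rw [this]
    simp only at hval
    rw [hval]

end Vale.Agent.P113
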