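import Mathlib
import Vale.Agent.P113.Energy

namespace Vale.Agent.P113

open Set MeasureTheory Filter Topology

/-- Reduce a point of `ℝ³` to the unit cube by an integer translation. -/
lemma exists_cube_rep (x : V3) : ∃ (y : V3) (k : Fin 3 → ℤ), y ∈ Icc (0 : V3) 1 ∧
    (fun i => y i + (k i : ℝ)) = x := by
  refine ⟨fun i => Int.fract (x i), fun i => ⌊x i⌋, ⟨fun i => ?_, fun i => ?_⟩, ?_⟩
  · exact Int.fract_nonneg _
  · exact (Int.fract_lt_one _).le
  · funext i
    exact Int.fract_add_floor (x i)

theorem unique_solution (ν : ℝ) (hν : 0 ≤ ν) (f : ℝ → V3 → V3) (T : ℝ) (hT : 0 < T)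
    (u : ℝ → V3 → V3) (p : ℝ → V3 → ℝ) (v : ℝ → V3 → V3) (q : ℝ → V3 → ℝ)
    (h1 : IsClassicalSolution ν f T u p) (h2 : IsClassicalSolution ν f T v q) :
    ∀ t ∈ Icc 0 T, ∀ x, v t x = u t x ∧ q t x = p t x := by
  set Q3 : Set V3 := Icc (0 : V3) 1 with hQ3
  have hQc : IsCompact Q3 := isCompact_Icc
  have hKc : IsCompact (Icc 0 T ×ˢ Q3) := isCompact_Icc.prod hQc
  have hsub : Icc 0 T ×ˢ Q3 ⊆ Icc 0 T ×ˢ (univ : Set V3) := prod_mono le_rfl (subset_univ _)
  -- bound on the gradient of u
  have hb1 : ∀ i j, ∃ C, ∀ z ∈ Icc 0 T ×ˢ Q3, ‖pd j (fun y => u z.1 y i) z.2‖ ≤ C := fun i j =>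
    hKc.exists_bound_of_continuousOn ((h1.continuous_ux i j).mono hsub)
  choose C hC using hb1
  set K : ℝ := ∑ i, ∑ j, |C i j| with hKdef
  have hK : ∀ t ∈ Icc 0 T, ∀ x ∈ Q3, ∀ i j, |pd j (fun y => u t y i) x| ≤ K := by
    intro t ht x hx i j
    have e1 : |pd j (fun y => u t y i) x| ≤ C i j := hC i j (t, x) ⟨ht, hx⟩
    have e2 : |C i j| ≤ ∑ j, |C i j| :=
      Finset.single_le_sum (f := fun j => |C i j|) (fun _ _ => abs_nonneg _) (Finset.mem_univ j)
    have e3 : ∑ j, |C i j| ≤ K :=
      Finset.single_le_sum (f := fun i => ∑ j, |C i j|)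
        (fun _ _ => Finset.sum_nonneg fun _ _ => abs_nonneg _) (Finset.mem_univ i)
    exact e1.trans ((le_abs_self _).trans (e2.trans e3))
  -- energy density and its time derivative
  let ut : ℝ → V3 → Fin 3 → ℝ := fun t x i => derivWithin (fun s => u s x i) (Icc 0 T) t
  let vt : ℝ → V3 → Fin 3 → ℝ := fun t x i => derivWithin (fun s => v s x i) (Icc 0 T) t
  let D : ℝ → V3 → ℝ := fun t x => ∑ i, (v t x i - u t x i) ^ 2
  let D' : ℝ → V3 → ℝ := fun t x => ∑ i, 2 * ((v t x i - u t x i) * (vt t x i - ut t x i))
  have cu : ∀ i, ContinuousOn (fun z : ℝ × V3 => u z.1 z.2 i) (Icc 0 T ×ˢ univ) := fun i =>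
    (continuous_apply i).comp_continuousOn h1.continuous_u
  have cv : ∀ i, ContinuousOn (fun z : ℝ × V3 => v z.1 z.2 i) (Icc 0 T ×ˢ univ) := fun i =>
    (continuous_apply i).comp_continuousOn h2.continuous_u
  have cD : ContinuousOn (fun z : ℝ × V3 => D z.1 z.2) (Icc 0 T ×ˢ univ) :=
    continuousOn_finsetSum _ fun i _ => ((cv i).sub (cu i)).pow 2
  have cD' : ContinuousOn (fun z : ℝ × V3 => D' z.1 z.2) (Icc 0 T ×ˢ univ) :=
    continuousOn_finsetSum _ fun i _ => continuousOn_const.mul
      (((cv i).sub (cu i)).mul ((h2.continuous_ut i).sub (h1.continuous_ut i)))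
  have slice : ∀ {g : ℝ × V3 → ℝ}, ContinuousOn g (Icc 0 T ×ˢ univ) → ∀ t ∈ Icc 0 T,
      Continuous fun x => g (t, x) := by
    intro g hg t ht
    exact hg.comp_continuous (continuous_const.prodMk continuous_id) fun x => ⟨ht, mem_univ _⟩
  let e : ℝ → ℝ := fun t => ∫ x in Q3, D t x
  have hecont : ContinuousOn e (Icc 0 T) := by
    intro t ht
    obtain ⟨B, hB⟩ := hKc.exists_bound_of_continuousOn (cD.mono hsub)
    refine continuousWithinAt_of_dominated (bound := fun _ => B) ?_ ?_ ?_ ?_
    · filter_upwards [self_mem_nhdsWithin] with s hs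
      exact (slice cD s hs).aestronglyMeasurable
    · filter_upwards [self_mem_nhdsWithin] with s hs
      filter_upwards [ae_restrict_mem measurableSet_Icc] with x hx
      exact hB (s, x) ⟨hs, hx⟩
    · exact (continuousOn_const.integrableOn_compact hQc)
    · filter_upwards with x
      have : ContinuousOn (fun s => D s x) (Icc 0 T) :=
        cD.comp (f := fun s : ℝ => (s, x)) (by fun_prop) (fun s hs => ⟨hs, mem_univ _⟩)
      exact this t ht
  have hederiv : ∀ t ∈ Ioo 0 T, HasDerivAt e (∫ x in Q3, D' t x) t := by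
    intro t ht
    obtain ⟨B, hB⟩ := hKc.exists_bound_of_continuousOn (cD'.mono hsub)
    have htI : t ∈ Icc 0 T := Ioo_subset_Icc_self ht
    refine (hasDerivAt_integral_of_dominated_loc_of_deriv_le (s := Ioo 0 T)
      (bound := fun _ => B) (F' := D') (isOpen_Ioo.mem_nhds ht) ?_ ?_ ?_ ?_ ?_ ?_).2
    · filter_upwards [isOpen_Ioo.mem_nhds ht] with s hs
      exact (slice cD s (Ioo_subset_Icc_self hs)).aestronglyMeasurable
    · exact (slice cD t htI).continuousOn.integrableOn_compact hQc
    · exact (slice cD' t htI).aestronglyMeasurable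
    · filter_upwards [ae_restrict_mem measurableSet_Icc] with x hx
      intro s hs
      exact hB (s, x) ⟨Ioo_subset_Icc_self hs, hx⟩
    · exact (continuousOn_const.integrableOn_compact hQc)
    · filter_upwards with x
      intro s hs
      have hsI : s ∈ Icc 0 T := Ioo_subset_Icc_self hs
      have hn : Icc 0 T ∈ 𝓝 s := Icc_mem_nhds hs.1 hs.2
      have du : ∀ i, HasDerivAt (fun r => u r x i) (ut s x i) s := fun i =>
        (h1.differentiable_time x i s hsI).hasDerivWithinAt.hasDerivAt hn
      have dv : ∀ i, HasDerivAt (fun r => v r x i) (vt s x i) s := fun i =>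
        (h2.differentiable_time x i s hsI).hasDerivWithinAt.hasDerivAt hn
      have : HasDerivAt (fun r => ∑ i, (v r x i - u r x i) ^ 2)
          (∑ i, 2 * ((v s x i - u s x i) * (vt s x i - ut s x i))) s := by
        apply HasDerivAt.fun_sum
        intro i _
        refine (((dv i).fun_sub (du i)).fun_pow 2).congr_deriv ?_
        simp
        ring
      exact this
  -- differential inequality
  have hineq : ∀ t ∈ Ioo 0 T, (∫ x in Q3, D' t x) ≤ (6 * K) * e t := by
    intro t ht
    have htI : t ∈ Icc 0 T := Ioo_subset_Icc_self ht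
    have proj_per : ∀ {g : V3 → V3}, SpacePeriodic g → ∀ i, SpacePeriodic fun y => g y i :=
      fun hg i x k => by simp only [hg x k]
    have key := energy_slice ν hν (fun i y => u t y i) (fun i y => v t y i) (p t) (q t)
      (fun i => (contDiff_pi.1 (h1.contDiff_u t htI)) i)
      (fun i => (contDiff_pi.1 (h2.contDiff_u t htI)) i)
      (h1.contDiff_p t htI) (h2.contDiff_p t htI)
      (proj_per (h1.periodic_u t htI)) (proj_per (h2.periodic_u t htI))
      (h1.periodic_p t htI) (h2.periodic_p t htI)
      (h1.incompressible t htI) (h2.incompressible t htI)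
      (fun i x => ut t x i) (fun i x => vt t x i)
      (fun i => slice (h1.continuous_ut i) t htI) (fun i => slice (h2.continuous_ut i) t htI)
      (f t) (fun x i => h1.momentum t htI x i) (fun x i => h2.momentum t htI x i)
      K (hK t htI)
    have e1 : (∫ x in Q3, D' t x)
        = 2 * ∫ x in Q3, ∑ i, (v t x i - u t x i) * (vt t x i - ut t x i) := by
      rw [← integral_const_mul]
      apply integral_congr_ae
      filter_upwards with x
      simp only [D', Finset.mul_sum]
    rw [e1]
    have : e t = ∫ x in Q3, ∑ i, (v t x i - u t x i) ^ 2 := rfl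
    rw [this]
    nlinarith [key]
  -- Gronwall
  let g : ℝ → ℝ := fun t => e t * Real.exp (-(6 * K) * t)
  have hgc : ContinuousOn g (Icc 0 T) := hecont.mul (by fun_prop)
  have hgd : ∀ t ∈ Ioo 0 T, HasDerivAt g
      ((∫ x in Q3, D' t x) * Real.exp (-(6 * K) * t)
        + e t * (Real.exp (-(6 * K) * t) * (-(6 * K)))) t := by
    intro t ht
    have h2 : HasDerivAt (fun t => Real.exp (-(6 * K) * t))
        (Real.exp (-(6 * K) * t) * (-(6 * K))) t := by
      have := ((hasDerivAt_id t).const_mul (-(6 * K))).exp
      simpa using this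
    exact (hederiv t ht).mul h2
  have hanti : AntitoneOn g (Icc 0 T) := by
    apply antitoneOn_of_deriv_nonpos (convex_Icc 0 T) hgc
    · rw [interior_Icc]
      intro t ht
      exact (hgd t ht).differentiableAt.differentiableWithinAt
    · rw [interior_Icc]
      intro t ht
      rw [(hgd t ht).deriv]
      have := hineq t ht
      have hpos := Real.exp_pos (-(6 * K) * t)
      nlinarith
  have he0 : e 0 = 0 := by
    have : ∀ x, D 0 x = 0 := by
      intro x
      simp [D, h1.initial x, h2.initial x]
    simp [e, this]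
  have hezero : ∀ t ∈ Icc 0 T, e t = 0 := by
    intro t ht
    have h0 : (0 : ℝ) ∈ Icc 0 T := ⟨le_rfl, hT.le⟩
    have h3 := hanti h0 ht ht.1
    have h4 : g 0 = 0 := by simp [g, he0]
    rw [h4] at h3
    have hpos := Real.exp_pos (-(6 * K) * t)
    have h5 : e t ≤ 0 := by
      by_contra hcon
      push Not at hcon
      have : 0 < g t := mul_pos hcon hpos
      linarith
    have h6 : 0 ≤ e t := integral_nonneg fun x =>
      Finset.sum_nonneg fun i _ => sq_nonneg _
    linarith
  have hint : Q3 ⊆ closure (interior Q3) := by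
    have hcl : closure (interior Q3) = Q3 := by
      rw [hQ3, ← Set.pi_univ_Icc, interior_pi_set Set.finite_univ, closure_pi_set]
      simp only [Pi.zero_apply, Pi.one_apply, interior_Icc]
      congr 1
      funext i
      exact closure_Ioo zero_ne_one
    rw [hcl]
  -- u = v
  have huv : ∀ t ∈ Icc 0 T, ∀ x, v t x = u t x := by
    intro t ht
    have hc := slice cD t ht
    have h0 : (fun x => D t x) =ᵐ[volume.restrict Q3] fun _ => 0 := by
      have := hezero t ht
      rw [integral_eq_zero_iff_of_nonneg (fun x => Finset.sum_nonneg fun i _ => sq_nonneg _)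
        (hc.continuousOn.integrableOn_compact hQc)] at this
      exact this
    have h1' : EqOn (fun x => D t x) (fun _ => 0) Q3 :=
      Measure.eqOn_of_ae_eq h0 hc.continuousOn continuousOn_const hint
    intro x
    obtain ⟨y, k, hy, rfl⟩ := exists_cube_rep x
    rw [h1.periodic_u t ht y k, h2.periodic_u t ht y k]
    have h2' := h1' hy
    simp only [D] at h2'
    funext i
    rw [Finset.sum_eq_zero_iff_of_nonneg (fun i _ => sq_nonneg _)] at h2'
    have := h2' i (Finset.mem_univ i)
    have := pow_eq_zero_iff (two_ne_zero) |>.1 this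
    linarith
  intro t ht x
  refine ⟨huv t ht x, ?_⟩
  -- pressures
  have hd : ∀ x i, pd i (q t) x = pd i (p t) x := by
    intro x i
    have m1 := h1.momentum t ht x i
    have m2 := h2.momentum t ht x i
    have hv : v t = u t := funext fun y => huv t ht y
    have hdv : derivWithin (fun s => v s x i) (Icc 0 T) t
        = derivWithin (fun s => u s x i) (Icc 0 T) t := by
      apply derivWithin_congr
      · intro s hs
        simp only [huv s hs x]
      · simp only [huv t ht x]
    rw [hv, hdv] at m2
    linarith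
  have hconst : ∀ x y, q t x - p t x = q t y - p t y := by
    have hdiff : Differentiable ℝ fun x => q t x - p t x :=
      ((h2.contDiff_p t ht).differentiable (by norm_num)).sub
        ((h1.contDiff_p t ht).differentiable (by norm_num))
    have hz : ∀ x, fderiv ℝ (fun x => q t x - p t x) x = 0 := by
      intro x
      have e1 : fderiv ℝ (fun x => q t x - p t x) x = fderiv ℝ (q t) x - fderiv ℝ (p t) x :=
        fderiv_sub ((h2.contDiff_p t ht).differentiable (by norm_num) x)
          ((h1.contDiff_p t ht).differentiable (by norm_num) x)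
      rw [e1]
      apply ContinuousLinearMap.ext
      intro w
      have hw : w = ∑ i, w i • (Pi.single i (1 : ℝ) : V3) := by
        funext j
        simp [Finset.sum_apply, Pi.single_apply]
      change (fderiv ℝ (q t) x - fderiv ℝ (p t) x) w = 0
      rw [hw, map_sum]
      apply Finset.sum_eq_zero
      intro i _
      have := hd x i
      unfold pd at this
      rw [map_smul]
      simp [this]
    exact fun x y => is_const_of_fderiv_eq_zero hdiff hz x y
  have hmean : ∫ y in Q3, (q t y - p t y) = 0 := by
    have i1 : IntegrableOn (q t) Q3 :=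
      (h2.contDiff_p t ht).continuous.continuousOn.integrableOn_compact hQc
    have i2 : IntegrableOn (p t) Q3 :=
      (h1.contDiff_p t ht).continuous.continuousOn.integrableOn_compact hQc
    rw [integral_sub i1 i2, h1.mean_zero t ht, h2.mean_zero t ht, sub_zero]
  have hc : ∀ y, q t y - p t y = q t x - p t x := fun y => hconst y x
  simp only [hc] at hmean
  rw [setIntegral_const] at hmean
  have hvol : volume.real Q3 = 1 := by
    rw [hQ3, Measure.real, Real.volume_Icc_pi]
    simp
  rw [hvol] at hmean
  simp only [one_smul] at hmean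
  linarith

end Vale.Agent.P113
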