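import Mathlib
import Vale.Agent.P113.FieldComp
import Vale.Agent.P113.Traj
import Vale.Agent.P113.Unique

namespace Vale.Agent.P113

open Set

lemma iteratedDeriv_add_order (g : ℝ → ℝ) (a k : ℕ) :
    iteratedDeriv a (iteratedDeriv k g) = iteratedDeriv (a + k) g := by
  rw [iteratedDeriv_eq_iterate, iteratedDeriv_eq_iterate, iteratedDeriv_eq_iterate,
    Function.iterate_add_apply]

lemma within_eq {g : ℝ → ℝ} (hg : ContDiff ℝ smoothTop g) (a : ℕ) {t : ℝ} (ht : 0 ≤ t) :
    iteratedDerivWithin a g (Ici 0) t = iteratedDeriv a g t :=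
  iteratedDerivWithin_eq_iteratedDeriv (uniqueDiffOn_Ici 0)
    (hg.of_le (nat_le_smoothTop a)).contDiffAt ht

lemma mixedDeriv_zero (ν κ : ℝ) (v : ℕ → ℝ) (a : ℕ) (b : ℕ × ℕ × ℕ)
    {t : ℝ} (_ht : 0 ≤ t) (x : ℝ × ℝ × ℝ) : mixedDeriv (force ν κ v) 0 a b t x = 0 := by
  unfold mixedDeriv
  have h0 : ∀ (s y0 y1 y2 : ℝ), force ν κ v s ![y0, y1, y2] 0 = 0 := fun s y0 y1 y2 => rfl
  simp only [h0]
  simp

lemma mixedDeriv_one (ν κ : ℝ) (v : ℕ → ℝ) (a : ℕ) (b : ℕ × ℕ × ℕ)
    {t : ℝ} (ht : 0 ≤ t) (x : ℝ × ℝ × ℝ) : mixedDeriv (force ν κ v) 1 a b t x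
      = if (b.1 = 0 ∧ b.2.1 = 0) ∧ b.2.2 = 0 then κ * iteratedDeriv (a + 1) bump t else 0 := by
  unfold mixedDeriv
  have h0 : ∀ (s y0 y1 y2 : ℝ), force ν κ v s ![y0, y1, y2] 1 = κ * iteratedDeriv 1 bump s :=
    fun s y0 y1 y2 => rfl
  simp only [h0, iteratedDeriv_const]
  have hs : ContDiff ℝ smoothTop fun s => κ * iteratedDeriv 1 bump s :=
    contDiff_const.mul (contDiff_iteratedDeriv contDiff_bump 1)
  by_cases h1 : b.1 = 0
  · by_cases h2 : b.2.1 = 0
    · by_cases h3 : b.2.2 = 0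
      · simp only [h1, h2, h3, if_true, and_self]
        rw [within_eq hs a ht, iteratedDeriv_const_mul_field, iteratedDeriv_add_order]
      · simp only [h1, h2, h3, if_true, if_false, and_false]
        simp
    · simp only [h1, h2, if_true, if_false, and_false, false_and]
      simp
  · simp only [h1, if_false, false_and]
    simp

lemma mixedDeriv_two (ν κ : ℝ) (v : ℕ → ℝ) (a : ℕ) (b : ℕ × ℕ × ℕ)
    {t : ℝ} (ht : 0 ≤ t) (x : ℝ × ℝ × ℝ) (hv : ∀ e, |v e| ≤ 1) :
    mixedDeriv (force ν κ v) 2 a b t x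
      = if b.1 = 0 ∧ b.2.2 = 0 then
          iteratedDeriv (a + 1) psi1 t * iteratedDeriv b.2.1 (H v) x.2.1
            - ν * (iteratedDeriv a psi1 t * iteratedDeriv (b.2.1 + 2) (H v) x.2.1)
        else 0 := by
  unfold mixedDeriv
  have h0 : ∀ (s y0 y1 y2 : ℝ), force ν κ v s ![y0, y1, y2] 2
      = iteratedDeriv 1 psi1 s * H v y1 - ν * (psi1 s * iteratedDeriv 2 (H v) y1) :=
    fun s y0 y1 y2 => rfl
  simp only [h0, iteratedDeriv_const]
  by_cases h1 : b.1 = 0
  · by_cases h3 : b.2.2 = 0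
    · simp only [h1, h3, if_true, and_self]
      have hHs := contDiff_H v hv
      have e1 : ∀ s, iteratedDeriv b.2.1 (fun y1 => iteratedDeriv 1 psi1 s * H v y1
          - ν * (psi1 s * iteratedDeriv 2 (H v) y1)) x.2.1
          = iteratedDeriv 1 psi1 s * iteratedDeriv b.2.1 (H v) x.2.1
            - ν * (psi1 s * iteratedDeriv (b.2.1 + 2) (H v) x.2.1) := by
        intro s
        have c1 : ContDiff ℝ b.2.1 (fun y => iteratedDeriv 1 psi1 s * H v y) :=
          (contDiff_const.mul hHs).of_le (nat_le_smoothTop _)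
        have c2 : ContDiff ℝ b.2.1 (fun y => ν * (psi1 s * iteratedDeriv 2 (H v) y)) :=
          (contDiff_const.mul (contDiff_const.mul (contDiff_iteratedDeriv hHs 2))).of_le
            (nat_le_smoothTop _)
        have e2 := iteratedDeriv_sub (n := b.2.1) (x := x.2.1) c1.contDiffAt c2.contDiffAt
        refine e2.trans ?_
        rw [iteratedDeriv_const_mul_field, iteratedDeriv_const_mul_field,
          iteratedDeriv_const_mul_field, iteratedDeriv_add_order]
      simp only [e1]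
      have c1 : ContDiff ℝ smoothTop
          (fun s => iteratedDeriv 1 psi1 s * iteratedDeriv b.2.1 (H v) x.2.1) :=
        (contDiff_iteratedDeriv contDiff_psi1 1).mul contDiff_const
      have c2 : ContDiff ℝ smoothTop
          (fun s => ν * (psi1 s * iteratedDeriv (b.2.1 + 2) (H v) x.2.1)) :=
        contDiff_const.mul (contDiff_psi1.mul contDiff_const)
      rw [within_eq (c1.sub c2) a ht]
      have e2 := iteratedDeriv_sub (n := a) (x := t)
        (c1.of_le (nat_le_smoothTop _)).contDiffAt (c2.of_le (nat_le_smoothTop _)).contDiffAt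
      refine e2.trans ?_
      rw [iteratedDeriv_const_mul_field, iteratedDeriv_mul_const_field,
        iteratedDeriv_mul_const_field, iteratedDeriv_add_order]
    · simp only [h1, h3, if_true, if_false, and_false]
      simp
  · simp only [h1, if_false, false_and]
    simp

/-- The inputs of the evaluation program, without the accuracy. -/
abbrev Inp := (Machine × List ℕ) × (ℕ × ℕ × (ℕ × ℕ × ℕ)) × QName × (QName × QName × QName)

lemma cr_psi1 : CR fun p : ℕ × QName => iteratedDeriv p.1 psi1 (qval p.2) := by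
  have h1 : CR fun p : ℕ × QName => iteratedDeriv p.1 bump (qval (fractQ p.2)) :=
    cr_bump.comp (h := fun p : ℕ × QName => (p.1, fractQ p.2))
      (Primrec.fst.pair (primrec_fractQ.comp Primrec.snd)).to_comp
  refine (h1.sub cr_bump).congr fun p => ?_
  rw [iteratedDeriv_psi1, qval_fractQ]

lemma cr_H : CR fun p : (Machine × ℕ) × QName => iteratedDeriv p.1.2 (H (vM p.1.1)) (qval p.2) := by
  have h1 : CR fun p : (Machine × ℕ) × QName =>
      iteratedDeriv p.1.2 (field (vM p.1.1)) (qval (fractQ p.2)) :=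
    cr_field.comp (h := fun p : (Machine × ℕ) × QName => (p.1, fractQ p.2))
      (Primrec.fst.pair (primrec_fractQ.comp Primrec.snd)).to_comp
  refine h1.congr fun p => ?_
  rw [iteratedDeriv_H _ (abs_vM_le p.1.1), qval_fractQ]

/-- The family of all mixed derivatives, as a function of the program input. -/
noncomputable def target (ν : ℝ) (K : ℕ) (a : Inp) : ℝ :=
  bif decide (a.2.1.1 = 1) then
    (bif (decide (a.2.1.2.2.1 = 0) && decide (a.2.1.2.2.2.1 = 0)) && decide (a.2.1.2.2.2.2 = 0) then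
      ((K : ℝ) * (1 / 2) ^ (Encodable.encode a.1.2)) *
        iteratedDeriv (a.2.1.2.1 + 1) bump (qval a.2.2.1) else 0)
  else (bif decide (a.2.1.1 = 2) then
    (bif decide (a.2.1.2.2.1 = 0) && decide (a.2.1.2.2.2.2 = 0) then
      iteratedDeriv (a.2.1.2.1 + 1) psi1 (qval a.2.2.1) *
          iteratedDeriv a.2.1.2.2.2.1 (H (vM a.1.1)) (qval a.2.2.2.2.1)
        - ν * (iteratedDeriv a.2.1.2.1 psi1 (qval a.2.2.1) *
          iteratedDeriv (a.2.1.2.2.2.1 + 2) (H (vM a.1.1)) (qval a.2.2.2.2.1))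
      else 0)
    else 0)

lemma cr_target (ν : ℝ) (hν : IsComputableReal ν) (K : ℕ) : CR (target ν K) := by
  have pM : Primrec fun a : Inp => a.1.1 := Primrec.fst.comp Primrec.fst
  have pw : Primrec fun a : Inp => a.1.2 := Primrec.snd.comp Primrec.fst
  have p2 : Primrec fun a : Inp => a.2 := Primrec.snd
  have p21 : Primrec fun a : Inp => a.2.1 := Primrec.fst.comp p2
  have pi : Primrec fun a : Inp => a.2.1.1 := Primrec.fst.comp p21
  have p212 : Primrec fun a : Inp => a.2.1.2 := Primrec.snd.comp p21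
  have pa : Primrec fun a : Inp => a.2.1.2.1 := Primrec.fst.comp p212
  have pb : Primrec fun a : Inp => a.2.1.2.2 := Primrec.snd.comp p212
  have pb0 : Primrec fun a : Inp => a.2.1.2.2.1 := Primrec.fst.comp pb
  have pb12 : Primrec fun a : Inp => a.2.1.2.2.2 := Primrec.snd.comp pb
  have pb1 : Primrec fun a : Inp => a.2.1.2.2.2.1 := Primrec.fst.comp pb12
  have pb2 : Primrec fun a : Inp => a.2.1.2.2.2.2 := Primrec.snd.comp pb12
  have p22 : Primrec fun a : Inp => a.2.2 := Primrec.snd.comp p2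
  have pt : Primrec fun a : Inp => a.2.2.1 := Primrec.fst.comp p22
  have px : Primrec fun a : Inp => a.2.2.2 := Primrec.snd.comp p22
  have px12 : Primrec fun a : Inp => a.2.2.2.2 := Primrec.snd.comp px
  have py : Primrec fun a : Inp => a.2.2.2.2.1 := Primrec.fst.comp px12
  have z : CR fun _ : Inp => (0 : ℝ) :=
    (CR.exact (Computable.const ((0, 0, 0) : QName))).congr fun _ => by simp [qval]
  have eqc : ∀ {f : Inp → ℕ}, Primrec f → ∀ n : ℕ, Primrec fun a => decide (f a = n) :=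
    fun hf n => (Primrec.eq.comp hf (Primrec.const n)).decide
  have hK : CR fun _ : Inp => (K : ℝ) :=
    (CR.exact (Computable.const ((K, 0, 0) : QName))).congr fun _ => by simp [qval]
  have hhalf : CR fun a : Inp => (1 / 2 : ℝ) ^ (Encodable.encode a.1.2) :=
    cr_half_pow.comp (Primrec.encode.comp pw).to_comp
  have hν' : CR fun _ : Inp => ν := by
    obtain ⟨g, hg, hgb⟩ := hν
    exact ⟨fun p => g p.2, hg.comp Computable.snd, fun _ k => hgb k⟩
  have hb : CR fun a : Inp => iteratedDeriv (a.2.1.2.1 + 1) bump (qval a.2.2.1) :=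
    cr_bump.comp (h := fun a : Inp => (a.2.1.2.1 + 1, a.2.2.1))
      ((P.add pa (P.c 1)).pair pt).to_comp
  have hp1 : CR fun a : Inp => iteratedDeriv (a.2.1.2.1 + 1) psi1 (qval a.2.2.1) :=
    cr_psi1.comp (h := fun a : Inp => (a.2.1.2.1 + 1, a.2.2.1))
      ((P.add pa (P.c 1)).pair pt).to_comp
  have hp0 : CR fun a : Inp => iteratedDeriv a.2.1.2.1 psi1 (qval a.2.2.1) :=
    cr_psi1.comp (h := fun a : Inp => (a.2.1.2.1, a.2.2.1)) (pa.pair pt).to_comp
  have hH0 : CR fun a : Inp => iteratedDeriv a.2.1.2.2.2.1 (H (vM a.1.1)) (qval a.2.2.2.2.1) :=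
    cr_H.comp (h := fun a : Inp => ((a.1.1, a.2.1.2.2.2.1), a.2.2.2.2.1))
      ((pM.pair pb1).pair py).to_comp
  have hH2 : CR fun a : Inp =>
      iteratedDeriv (a.2.1.2.2.2.1 + 2) (H (vM a.1.1)) (qval a.2.2.2.2.1) :=
    cr_H.comp (h := fun a : Inp => ((a.1.1, a.2.1.2.2.2.1 + 2), a.2.2.2.2.1))
      ((pM.pair (P.add pb1 (P.c 2))).pair py).to_comp
  unfold target
  exact CR.cond (eqc pi 1).to_comp
    (CR.cond (Primrec.and.comp (Primrec.and.comp (eqc pb0 0) (eqc pb1 0)) (eqc pb2 0)).to_comp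
      ((hK.mul hhalf).mul hb) z)
    (CR.cond (eqc pi 2).to_comp
      (CR.cond (Primrec.and.comp (eqc pb0 0) (eqc pb2 0)).to_comp
        ((hp1.mul hH0).sub (hν'.mul (hp0.mul hH2))) z) z)

/-- The force attached to `(M, w)`. -/
noncomputable def F (ν : ℝ) (K : ℕ) (M : Machine) (w : List ℕ) : ℝ → V3 → V3 :=
  force ν ((K : ℝ) * (1 / 2) ^ (Encodable.encode w)) (vM M)

lemma target_eq (ν : ℝ) (K : ℕ) (M : Machine) (w : List ℕ) (i : Fin 3) (a : ℕ) (b : ℕ × ℕ × ℕ)
    (t : QName) (x : QName × QName × QName) (ht : 0 ≤ qval t) :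
    mixedDeriv (F ν K M w) i a b (qval t) (qval x.1, qval x.2.1, qval x.2.2)
      = target ν K ((M, w), ((i : ℕ), a, b), t, x) := by
  unfold F target
  simp only
  fin_cases i
  · rw [Fin.zero_eta, mixedDeriv_zero _ _ _ _ _ ht]
    simp
  · rw [Fin.mk_one, mixedDeriv_one _ _ _ _ _ ht]
    by_cases h1 : b.1 = 0 <;> by_cases h2 : b.2.1 = 0 <;> by_cases h3 : b.2.2 = 0 <;>
      simp [h1, h2, h3]
  · simp only [Fin.reduceFinMk]
    rw [mixedDeriv_two _ _ _ _ _ ht _ (abs_vM_le M)]
    by_cases h1 : b.1 = 0 <;> by_cases h3 : b.2.2 = 0 <;>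
      simp [h1, h3]

theorem exists_compiler (ν : ℝ) (hν : IsComputableReal ν) (K : ℕ) :
    ∃ compile : Machine × List ℕ → Nat.Partrec.Code, Computable compile ∧
      ∀ M w, IsEffective (F ν K M w) (compile (M, w)) := by
  obtain ⟨g, hg, hgb⟩ := cr_target ν hν K
  -- the program input
  let Q := (ℕ × ℕ × (ℕ × ℕ × ℕ)) × QName × (QName × QName × QName) × QName
  let ap : (Machine × List ℕ) × Q → QName := fun z =>
    g ((z.1, z.2.1, z.2.2.1, z.2.2.2.1), z.2.2.2.2.2.2)
  have hap : Computable ap := by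
    have q2 : Primrec fun z : (Machine × List ℕ) × Q => z.2 := Primrec.snd
    have q21 : Primrec fun z : (Machine × List ℕ) × Q => z.2.1 := Primrec.fst.comp q2
    have q22 : Primrec fun z : (Machine × List ℕ) × Q => z.2.2 := Primrec.snd.comp q2
    have q221 : Primrec fun z : (Machine × List ℕ) × Q => z.2.2.1 := Primrec.fst.comp q22
    have q222 : Primrec fun z : (Machine × List ℕ) × Q => z.2.2.2 := Primrec.snd.comp q22
    have q2221 : Primrec fun z : (Machine × List ℕ) × Q => z.2.2.2.1 := Primrec.fst.comp q222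
    have q2222 : Primrec fun z : (Machine × List ℕ) × Q => z.2.2.2.2 := Primrec.snd.comp q222
    have qk : Primrec fun z : (Machine × List ℕ) × Q => z.2.2.2.2.2.2 := primrec_q3.comp q2222
    exact hg.comp ((Primrec.fst.pair (q21.pair (q221.pair q2221))).pair qk).to_comp
  have hpart : Nat.Partrec fun n => Part.bind (Encodable.decode (α := (Machine × List ℕ) × Q) n)
      fun a => (Part.some (ap a)).map Encodable.encode := hap
  obtain ⟨C, hC⟩ := Nat.Partrec.Code.exists_code.1 hpart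
  refine ⟨fun z => C.curry (Encodable.encode z),
    (Nat.Partrec.Code.primrec₂_curry.comp (Primrec.const C) Primrec.encode).to_comp, ?_⟩
  intro M w i a b t x ε ht hε
  refine ⟨ap ((M, w), ((i : ℕ), a, b), t, x, ε), ?_, ?_⟩
  · rw [Nat.Partrec.Code.eval_curry, hC]
    have he : Nat.pair (Encodable.encode (M, w)) (Encodable.encode (((i : ℕ), a, b), t, x, ε))
        = Encodable.encode (((M, w), ((i : ℕ), a, b), t, x, ε) : (Machine × List ℕ) × Q) := rfl
    rw [he]
    simp only [Encodable.encodek, Part.coe_some, Part.bind_some, Part.map_some, Part.mem_some_iff]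
  · rw [target_eq ν K M w i a b t x ht]
    have h1 := hgb ((M, w), ((i : ℕ), a, b), t, x) ε.2.2
    refine h1.trans ?_
    unfold qval at hε ⊢
    have hpos : (0 : ℝ) < (ε.2.2 : ℝ) + 1 := by positivity
    rw [div_pos_iff_of_pos_right hpos] at hε
    rw [div_le_div_iff_of_pos_right hpos]
    have h2 : (ε.2.1 : ℝ) < ε.1 := by linarith
    have h3 : ε.2.1 + 1 ≤ ε.1 := by exact_mod_cast h2
    have h4 : (ε.2.1 : ℝ) + 1 ≤ ε.1 := by exact_mod_cast h3
    linarith

end Vale.Agent.P113
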