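import Mathlib
import Vale.Agent.P113.Main

namespace Vale.Agent.P113

open Set

lemma force_after {ν κ κ' : ℝ} {v : ℕ → ℝ} {t : ℝ} (ht : 1 ≤ t) (x : V3) :
    force ν κ v t x = force ν κ' v t x := by
  unfold force
  rw [iteratedDeriv_of_one_le contDiff_bump (fun _ h => bump_of_one_le h) 1 ht, mul_zero, mul_zero]

lemma force_before {ν κ : ℝ} {v v' : ℕ → ℝ} {t : ℝ} (h0 : 0 ≤ t) (ht : t ≤ 1) (x : V3) :
    force ν κ v t x = force ν κ v' t x := by
  unfold force
  have h1 : psi1 t = 0 := by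
    rcases lt_or_eq_of_le ht with h | h
    · exact psi1_of_lt h0 h
    · subst h
      rw [psi1_of_ge le_rfl]
      unfold per
      rw [show Int.fract (1 : ℝ) = 0 by simp]
      exact bump_of_nonpos le_rfl
  have h2 : iteratedDeriv 1 psi1 t = 0 := by
    rw [iteratedDeriv_psi1]
    rcases lt_or_eq_of_le ht with h | h
    · rw [Int.fract_eq_self.2 ⟨h0, h⟩, sub_self]
    · subst h
      rw [show Int.fract (1 : ℝ) = 0 by simp,
        iteratedDeriv_of_nonpos contDiff_bump (fun _ h => bump_of_nonpos h) 1 le_rfl,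
        iteratedDeriv_of_one_le contDiff_bump (fun _ h => bump_of_one_le h) 1 le_rfl, sub_self]
  rw [h1, h2]
  simp

lemma force_periodic_time {ν κ : ℝ} {v : ℕ → ℝ} {t : ℝ} (ht : 1 ≤ t) (x : V3) :
    force ν κ v (t + 1) x = force ν κ v t x := by
  unfold force
  have h1 : psi1 (t + 1) = psi1 t := by
    rw [psi1_of_ge ht, psi1_of_ge (by linarith)]
    exact periodic_per bump t
  have hb : ∀ s : ℝ, 1 ≤ s → iteratedDeriv 1 bump s = 0 := fun s hs =>
    iteratedDeriv_of_one_le contDiff_bump (fun _ h => bump_of_one_le h) 1 hs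
  have h2 : iteratedDeriv 1 psi1 (t + 1) = iteratedDeriv 1 psi1 t := by
    rw [iteratedDeriv_psi1, iteratedDeriv_psi1, hb t ht, hb (t + 1) (by linarith)]
    have : Int.fract (t + 1) = Int.fract t := by
      have := Int.fract_add_intCast t 1
      simpa using this
    rw [this]
  rw [h1, h2, hb t ht, hb (t + 1) (by linarith)]

lemma force_spacePeriodic (ν κ : ℝ) (v : ℕ → ℝ) (hv : ∀ e, |v e| ≤ 1) (t : ℝ) :
    SpacePeriodic (force ν κ v t) := by
  intro x k
  have h1 : H v (x 1 + (k 1 : ℝ)) = H v (x 1) := per_add_int _ _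
  have h2 : iteratedDeriv 2 (H v) (x 1 + (k 1 : ℝ)) = iteratedDeriv 2 (H v) (x 1) := by
    rw [iteratedDeriv_H v hv, iteratedDeriv_H v hv, Int.fract_add_intCast]
  simp only [force, h1, h2]

theorem main (ν : ℝ) (hν : 0 < ν) (hc : IsComputableReal ν) :
    ∃ (a : V3) (O : Set T3), IsOpen O ∧
    ∃ (compile : Machine × List ℕ → Nat.Partrec.Code)
      (F : Machine → List ℕ → ℝ → V3 → V3) (T₀ : ℝ),
      Computable compile ∧ 0 ≤ T₀ ∧
      (∀ M w w' t x, T₀ ≤ t → F M w t x = F M w' t x) ∧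
      (∀ M M' w t x, 0 ≤ t → t ≤ T₀ → F M w t x = F M' w t x) ∧
      ∀ (M : Machine) (w : List ℕ),
        (∀ t, 0 ≤ t → SpacePeriodic (F M w t)) ∧
        SmoothForward (F M w) ∧
        IsEffective (F M w) (compile (M, w)) ∧
        (∃ τ, 0 < τ ∧ ∀ t x, T₀ ≤ t → F M w (t + τ) x = F M w t x) ∧
        ∃ (u : ℝ → V3 → V3) (p : ℝ → V3 → ℝ),
          SmoothForward u ∧ SmoothForward p ∧
          (∀ T, 0 < T → IsClassicalSolution ν (F M w) T u p) ∧
          (∀ T, 0 < T → ∀ (v : ℝ → V3 → V3) (q : ℝ → V3 → ℝ),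
            IsClassicalSolution ν (F M w) T v q →
              ∀ t ∈ Icc 0 T, ∀ x, v t x = u t x ∧ q t x = p t x) ∧
          (∃ X, IsTrajectory u a X) ∧
          ∀ X, IsTrajectory u a X → ((∃ t, 0 ≤ t ∧ proj (X t) ∈ O) ↔ Halts M w) := by
  obtain ⟨K, hK1, hK2⟩ := exists_K
  obtain ⟨compile, hcomp, heff⟩ := exists_compiler ν hc K
  refine ⟨0, O, isOpen_O, compile, F ν K, 1, hcomp, zero_le_one, ?_, ?_, ?_⟩
  · intro M w w' t x ht
    exact force_after ht x
  · intro M M' w t x h0 ht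
    exact force_before h0 ht x
  · intro M w
    refine ⟨fun t _ => force_spacePeriodic _ _ _ (abs_vM_le M) t,
      (contDiff_force _ _ _ (abs_vM_le M)).contDiffOn, heff M w,
      ⟨1, one_pos, fun t x ht => force_periodic_time ht x⟩, ?_⟩
    have hsol : ∀ T, 0 < T → IsClassicalSolution ν (F ν K M w) T
        (vel ((K : ℝ) * (1 / 2) ^ (Encodable.encode w)) (vM M)) (fun _ _ => 0) := fun T hT =>
      isClassicalSolution ν _ (vM M) (abs_vM_le M) T hT
    refine ⟨vel ((K : ℝ) * (1 / 2) ^ (Encodable.encode w)) (vM M), fun _ _ => 0,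
      (contDiff_vel _ _ (abs_vM_le M)).contDiffOn, contDiffOn_const, hsol, ?_,
      ⟨_, isTrajectory_traj _ _⟩, ?_⟩
    · intro T hT v q hv
      exact unique_solution ν hν.le _ T hT _ _ v q (hsol T hT) hv
    · intro X hX
      have hX' := isTrajectory_unique _ _ X hX
      have h1 : (∃ t, 0 ≤ t ∧ proj (X t) ∈ O) ↔
          ∃ t, 0 ≤ t ∧ proj (traj ((K : ℝ) * (1 / 2) ^ (Encodable.encode w)) (vM M) t) ∈ O := by
        constructor
        · rintro ⟨t, ht, h⟩
          exact ⟨t, ht, by rwa [hX' t ht] at h⟩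
        · rintro ⟨t, ht, h⟩
          exact ⟨t, ht, by rwa [hX' t ht]⟩
      rw [h1, traj_hits K hK1 hK2 (vM M) (vM_nonneg M), vM_pos_iff, Denumerable.ofNat_encode]

end Vale.Agent.P113
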